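import Vale.Agent.P080.Cone

/-!
# Comparison with cones on arbitrary compact sets
-/

namespace Vale.Agent.P080.C1.Holder

open scoped ContDiff Topology RealInnerProductSpace
open Set Filter Metric Vale.Agent.P080

variable {d : ℕ}

/-- A cone bound on the frontier of a compact neighbourhood of the vertex holds inside. -/
theorem cone_compact {u : E d → ℝ} {U S : Set (E d)} (hu : IsSub u U) (hS : IsCompact S)
    (hU : S ⊆ U) {x : E d} {ρ k : ℝ} (hρ : 0 < ρ) (hk : 0 ≤ k) (hx : x ∈ interior S)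
    (hSρ : S ⊆ closedBall x ρ) (hs : ∀ y ∈ frontier S, u y ≤ u x + k * ‖y - x‖)
    {y : E d} (hyS : y ∈ S) : u y ≤ u x + k * ‖y - x‖ := by
  refine le_of_forall_pos_le_add fun ε hε => ?_
  have hc : ContinuousWithinAt u S x := (hu.1.mono hU) x (interior_subset hx)
  obtain ⟨r, hr, hr'⟩ := Metric.continuousWithinAt_iff.1 hc (ε / 2) (by linarith)
  obtain ⟨r2, hr2, hr2'⟩ := Metric.mem_nhds_iff.1 (mem_interior_iff_mem_nhds.1 hx)
  set r0 := min (r / 2) (r2 / 2) with hr0def
  have hr0 : 0 < r0 := lt_min (by linarith) (by linarith)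
  have hin : ∀ z, ‖z - x‖ ≤ r0 → u z ≤ u x + ε / 2 := by
    intro z hz
    have h1 : dist z x < r := by
      rw [dist_eq_norm]; linarith [min_le_left (r / 2) (r2 / 2)]
    have h2 : z ∈ S := hr2' (by
      rw [mem_ball, dist_eq_norm]; linarith [min_le_right (r / 2) (r2 / 2)])
    have := hr' h2 h1
    rw [Real.dist_eq, abs_lt] at this
    linarith
  obtain ⟨δ, hδ, hδb⟩ : ∃ δ : ℝ, 0 < δ ∧ 3 * δ * (ρ + 1) * ρ ≤ ε / 4 := by
    refine ⟨ε / (12 * (ρ + 1) * ρ), by positivity, ?_⟩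
    apply le_of_eq
    field_simp
    ring
  set k' := k + 3 * δ * (ρ + 1) with hk'
  have hk'0 : 0 < k' := by positivity
  obtain ⟨h, hh, hh1, hh2, hh3⟩ : ∃ h : ℝ, 0 < h ∧ h ≤ 1 ∧ k' * h ≤ δ * r0 ^ 3 ∧
      k' * Real.sqrt h ≤ ε / 4 := by
    refine ⟨min 1 (min (δ * r0 ^ 3 / k') ((ε / (4 * k')) ^ 2)), ?_, min_le_left _ _, ?_, ?_⟩
    · exact lt_min one_pos (lt_min (by positivity) (by positivity))
    · calc _ ≤ k' * (δ * r0 ^ 3 / k') := mul_le_mul_of_nonneg_left
            ((min_le_right _ _).trans (min_le_left _ _)) hk'0.le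
        _ = _ := by field_simp
    · calc _ ≤ k' * Real.sqrt ((ε / (4 * k')) ^ 2) := mul_le_mul_of_nonneg_left
            (Real.sqrt_le_sqrt ((min_le_right _ _).trans (min_le_right _ _))) hk'0.le
        _ = _ := by rw [Real.sqrt_sq (by positivity)]; field_simp
  set q : ℝ → ℝ := fun s => u x + ε / 2 + (k' * Real.sqrt (s + h) - δ * s) with hq
  set q1 : ℝ → ℝ := fun s => k' / (2 * Real.sqrt (s + h)) - δ with hq1
  set q2 : ℝ → ℝ := fun s => -k' / (4 * Real.sqrt (s + h) ^ 3) with hq2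
  have hd1 : ∀ s, 0 ≤ s → HasDerivAt q (q1 s) s := by
    intro s hs
    have h0 : HasDerivAt (fun t : ℝ => t + h) 1 s := (hasDerivAt_id s).add_const h
    have h1 : HasDerivAt (fun t => Real.sqrt (t + h)) (1 / (2 * Real.sqrt (s + h))) s :=
      HasDerivAt.sqrt h0 (by linarith)
    have h2 := HasDerivAt.const_add (u x + ε / 2) (HasDerivAt.sub (HasDerivAt.const_mul k' h1)
      (HasDerivAt.const_mul δ (hasDerivAt_id s)))
    exact h2.congr_deriv (by simp only [hq1]; ring)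
  have hd2 : ∀ s, 0 ≤ s → HasDerivAt q1 (q2 s) s := by
    intro s hs
    have hne : Real.sqrt (s + h) ≠ 0 := (Real.sqrt_pos.2 (by linarith)).ne'
    have h0 : HasDerivAt (fun t : ℝ => t + h) 1 s := (hasDerivAt_id s).add_const h
    have h1 : HasDerivAt (fun t => 2 * Real.sqrt (t + h)) (2 * (1 / (2 * Real.sqrt (s + h)))) s :=
      HasDerivAt.const_mul 2 (HasDerivAt.sqrt h0 (by linarith))
    have h2 := HasDerivAt.sub_const δ (HasDerivAt.const_mul k' (HasDerivAt.inv h1 (by positivity)))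
    have e : q1 = fun x => k' * (fun t => 2 * Real.sqrt (t + h))⁻¹ x - δ := by
      funext t; simp [hq1, div_eq_mul_inv]
    rw [e]
    exact h2.congr_deriv (by simp only [hq2]; field_simp; ring)
  have hφ : ContDiff ℝ 2 (fun z => q (‖z - x‖ ^ 2)) := by
    have e : (fun z => q (‖z - x‖ ^ 2)) = fun z =>
        u x + ε / 2 + (k' * Real.sqrt (‖z - x‖ ^ 2 + h) - δ * ‖z - x‖ ^ 2) := rfl
    rw [e]
    have hn : ContDiff ℝ 2 (fun z : E d => ‖z - x‖ ^ 2) :=
      (contDiff_id.sub contDiff_const).norm_sq ℝ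
    exact contDiff_const.add ((contDiff_const.mul ((hn.add contDiff_const).sqrt fun z => by
      positivity)).sub (contDiff_const.mul hn))
  have hlow : ∀ z : E d, ‖z - x‖ ≤ Real.sqrt (‖z - x‖ ^ 2 + h) := fun z => by
    calc ‖z - x‖ = Real.sqrt (‖z - x‖ ^ 2) := (Real.sqrt_sq (norm_nonneg _)).symm
      _ ≤ _ := Real.sqrt_le_sqrt (by linarith)
  have key : u y ≤ q (‖y - x‖ ^ 2) := by
    refine hu.le_of_super hS hU hφ (fun z hzS hlt => ?_) hyS
    have hz : ‖z - x‖ ≤ ρ := by have := hSρ hzS; rwa [mem_closedBall, dist_eq_norm] at this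
    have hn0 := norm_nonneg (z - x)
    have hq0 : u x + ε / 2 + (k' * ‖z - x‖ - δ * ‖z - x‖ ^ 2) ≤ q (‖z - x‖ ^ 2) := by
      simp only [hq]
      linarith [mul_le_mul_of_nonneg_left (hlow z) hk'0.le]
    have hr1 : r0 < ‖z - x‖ := by
      by_contra hcon
      have := hin z (not_lt.1 hcon)
      nlinarith [mul_nonneg hδ.le hn0, mul_nonneg (mul_nonneg hδ.le hn0) (sub_nonneg.2 hz),
        mul_nonneg hk hn0]
    have hzi : z ∈ interior S := by
      by_contra hcon
      have hfr : z ∈ frontier S := by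
        rw [hS.isClosed.frontier_eq]; exact ⟨hzS, hcon⟩
      have := hs z hfr
      have hne : 0 < ‖z - x‖ := hr0.trans hr1
      nlinarith [mul_pos hδ hne, mul_le_mul_of_nonneg_left hz (mul_nonneg hδ.le hne.le),
        mul_nonneg (mul_nonneg hδ.le hne.le) hρ.le]
    refine ⟨mem_interior_iff_mem_nhds.1 hzi, ?_⟩
    rw [infLap_radial hd1 hd2]
    set s := ‖z - x‖ ^ 2 with hsdef
    have hs0 : 0 < s := by rw [hsdef]; exact pow_pos (hr0.trans hr1) 2
    set S := Real.sqrt (s + h) with hS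
    have hS0 : 0 < S := Real.sqrt_pos.2 (by linarith)
    have hS2 : S ^ 2 = s + h := Real.sq_sqrt (by linarith)
    have hSle : S ≤ ρ + 1 := by
      rw [hS, Real.sqrt_le_left (by linarith)]
      nlinarith [hz, hn0, hρ, hh1]
    have hq1pos : 0 < q1 s := by
      simp only [hq1, ← hS, sub_pos]
      rw [lt_div_iff₀ (by positivity)]
      nlinarith [mul_le_mul_of_nonneg_left hSle hδ.le]
    have hr03 : r0 ^ 3 ≤ S ^ 3 :=
      pow_le_pow_left₀ hr0.le ((hr1.le).trans (hlow z)) 3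
    have hneg : 2 * q2 s * s + q1 s < 0 := by
      simp only [hq1, hq2, ← hS]
      have e : 2 * (-k' / (4 * S ^ 3)) * s + (k' / (2 * S) - δ)
          = k' * h / (2 * S ^ 3) - δ := by
        field_simp
        linear_combination (4 : ℝ) * k' * hS2
      rw [e, sub_neg, div_lt_iff₀ (by positivity)]
      nlinarith [mul_le_mul_of_nonneg_left hr03 hδ.le, mul_pos hδ (pow_pos hS0 3)]
    exact mul_neg_of_pos_of_neg (by positivity) hneg
  have hsq : Real.sqrt (‖y - x‖ ^ 2 + h) ≤ ‖y - x‖ + Real.sqrt h := by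
    rw [Real.sqrt_le_left (by positivity)]
    nlinarith [Real.sq_sqrt hh.le, Real.sqrt_nonneg h, norm_nonneg (y - x)]
  simp only [hq] at key
  have hy : ‖y - x‖ ≤ ρ := by have := hSρ hyS; rwa [mem_closedBall, dist_eq_norm] at this
  nlinarith [mul_le_mul_of_nonneg_left hsq hk'0.le, norm_nonneg (y - x),
    mul_le_mul_of_nonneg_left hy (mul_nonneg (mul_nonneg (by norm_num : (0:ℝ) ≤ 3) hδ.le)
      (by linarith : (0:ℝ) ≤ ρ + 1)), mul_nonneg hδ.le (sq_nonneg ‖y - x‖)]

end Vale.Agent.P080.C1.Holder
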