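import Vale.Agent.P080.C1.Final

/-!
# Either the Lipschitz constant drops or the function is flat
-/

namespace Vale.Agent.P080.C1.Holder

open scoped ContDiff Topology RealInnerProductSpace
open Set Filter Metric Final

/-- `u` is `ε`-Lipschitz close to a linear function on `ball x0 r` -/
def Lin (u : E3 → ℝ) (x0 : E3) (r ε : ℝ) : Prop :=
  ∃ a : E3, ∀ x ∈ ball x0 r, ∀ y ∈ ball x0 r, |u y - u x - ⟪a, y - x⟫| ≤ ε * ‖y - x‖

lemma Lin.mono {u : E3 → ℝ} {x0 : E3} {r r' ε ε' : ℝ} (h : Lin u x0 r ε) (hr : r' ≤ r)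
    (hε : ε ≤ ε') : Lin u x0 r' ε' := by
  obtain ⟨a, ha⟩ := h
  exact ⟨a, fun x hx y hy => (ha x (ball_subset_ball hr hx) y (ball_subset_ball hr hy)).trans
    (mul_le_mul_of_nonneg_right hε (norm_nonneg _))⟩

/-- closeness to linear functions is transported by similarities -/
lemma Lin.transfer {u v : E3 → ℝ} {x0 : E3} {O : E3 ≃ₗᵢ[ℝ] E3} {ρ Lc b r ε : ℝ} (hρ : 0 < ρ)
    (hL : 0 < Lc) (hv : ∀ z, v z = (u (x0 + ρ • O z) - b) / Lc) (h : Lin v 0 r ε) :
    Lin u x0 (ρ * r) (Lc / ρ * ε) := by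
  obtain ⟨a, ha⟩ := h
  refine ⟨(Lc / ρ) • O a, fun x hx y hy => ?_⟩
  have hpre : ∀ w : E3, w ∈ ball x0 (ρ * r) →
      (ρ⁻¹ • O.symm (w - x0)) ∈ ball (0 : E3) r ∧ x0 + ρ • O (ρ⁻¹ • O.symm (w - x0)) = w := by
    intro w hw
    refine ⟨?_, by rw [map_smul, O.apply_symm_apply, smul_inv_smul₀ hρ.ne', add_sub_cancel]⟩
    rw [mem_ball, dist_zero_right, norm_smul, LinearIsometryEquiv.norm_map, norm_inv,
      Real.norm_of_nonneg hρ.le, inv_mul_lt_iff₀ hρ, ← dist_eq_norm]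
    exact hw
  obtain ⟨hx1, hx2⟩ := hpre x hx
  obtain ⟨hy1, hy2⟩ := hpre y hy
  have key := ha _ hx1 _ hy1
  rw [hv, hv, hx2, hy2, ← smul_sub, ← map_sub, sub_sub_sub_cancel_right, real_inner_smul_right,
    norm_smul, LinearIsometryEquiv.norm_map, norm_inv, Real.norm_of_nonneg hρ.le] at key
  have e1 : ⟪a, O.symm (y - x)⟫ = ⟪O a, y - x⟫ := by
    rw [← O.inner_map_map, O.apply_symm_apply]
  have e : u y - u x - ⟪(Lc / ρ) • O a, y - x⟫
      = Lc * ((u y - b) / Lc - (u x - b) / Lc - ρ⁻¹ * ⟪a, O.symm (y - x)⟫) := by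
    rw [real_inner_smul_left, e1]; field_simp; ring
  rw [e, abs_mul, abs_of_pos hL]
  exact (mul_le_mul_of_nonneg_left key hL.le).trans (le_of_eq (by ring))

/-- two nearly extremal sphere points give flatness inside -/
lemma flat_of_axes {u : E3 → ℝ} {x0 n m : E3} {L δ r0 : ℝ} (hL : 0 < L) (hδ : 0 < δ) (hδ1 : δ ≤ 1)
    (hr0 : 0 < r0) (hn : ‖n‖ = 1) (hm : ‖m‖ = 1)
    (hlip : ∀ z w : E3, ‖z‖ < r0 → ‖w‖ < r0 →
      u (x0 + w) - u (x0 + z) ≤ L * (1 + δ) * ‖w - z‖)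
    (hnT : L * (r0 / 4) ≤ u (x0 + (r0 / 4) • n) - u x0)
    (hmT : L * (r0 / 4) ≤ u x0 - u (x0 + (r0 / 4) • m)) {z : E3}
    (hz : ‖z‖ ≤ 2 * (r0 / 4 * Real.sqrt δ / 4)) :
    |u (x0 + z) - u x0 - L * ⟪n, z⟫|
      ≤ 16 * Real.sqrt δ * (L * (r0 / 4 * Real.sqrt δ / 4)) := by
  set s := Real.sqrt δ with hs
  have hs0 : 0 < s := Real.sqrt_pos.2 hδ
  have hss : s * s = δ := Real.mul_self_sqrt hδ.le
  have hs1 : s ≤ 1 := Real.sqrt_le_one.2 hδ1
  set T := r0 / 4 with hT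
  have hT0 : 0 < T := by positivity
  set r := T * s / 4 with hr
  have hrr : 0 < r := by positivity
  have hrT : 2 * r ≤ T := by rw [hr]; nlinarith
  have hn0 : ‖T • n‖ < r0 := by
    rw [norm_smul, hn, Real.norm_of_nonneg hT0.le]; linarith
  have hm0 : ‖T • m‖ < r0 := by
    rw [norm_smul, hm, Real.norm_of_nonneg hT0.le]; linarith
  have hsum : ‖n + m‖ ≤ 4 * s := by
    have h1 := hlip _ _ hm0 hn0
    rw [← smul_sub, norm_smul, Real.norm_of_nonneg hT0.le] at h1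
    have h2 : 2 * (L * T) ≤ (1 + δ) * ‖n - m‖ * (L * T) := by
      calc 2 * (L * T) ≤ L * (1 + δ) * (T * ‖n - m‖) := by linarith
        _ = _ := by ring
    have h3 : 2 ≤ (1 + δ) * ‖n - m‖ := le_of_mul_le_mul_right h2 (mul_pos hL hT0)
    have hn2 : ‖n - m‖ ≤ 2 := by
      refine (norm_sub_le n m).trans ?_; rw [hn, hm]; norm_num
    have h4 : 2 - 2 * δ ≤ ‖n - m‖ := by nlinarith
    refine le_of_pow_le_pow_left₀ two_ne_zero (by positivity) ?_
    have hp := parallelogram_law_with_norm ℝ n m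
    rw [hn, hm] at hp
    rw [mul_pow, sq s, hss]
    nlinarith [norm_nonneg (n - m)]
  have hzr : ‖z‖ < r0 := by linarith
  have hzT : ‖z‖ ≤ T := hz.trans hrT
  have hq : ‖z‖ ^ 2 / (2 * T) ≤ s * r := by
    rw [div_le_iff₀ (by positivity)]
    calc ‖z‖ ^ 2 ≤ (2 * r) ^ 2 := pow_le_pow_left₀ (norm_nonneg z) hz 2
      _ = s * r * T := by rw [hr]; ring
      _ ≤ s * r * (2 * T) := by gcongr; linarith
  have hLd : 0 ≤ L * (1 + δ) := by positivity
  have hTδ : δ * T = 4 * (s * r) := by rw [← hss, hr]; ring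
  have hδs : δ ≤ s := by rw [← hss]; exact mul_le_of_le_one_left hs0.le hs1
  have hb : ∀ v : E3, ‖v‖ = 1 → |⟪v, z⟫| ≤ 2 * r := fun v hv => by
    refine (abs_real_inner_le_norm v z).trans ?_
    rw [hv, one_mul]; exact hz
  have h1 := hlip z (T • n) hzr hn0
  have h2 := hlip (T • m) z hm0 hzr
  have e1 := mul_le_mul_of_nonneg_left ((norm_axis_sub_le hn hT0 hzT).trans
    (add_le_add le_rfl hq)) hLd
  have e2 := mul_le_mul_of_nonneg_left ((norm_axis_sub_le hm hT0 hzT).trans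
    (add_le_add le_rfl hq)) hLd
  rw [norm_sub_rev] at h2
  have hnm : |⟪n, z⟫ + ⟪m, z⟫| ≤ 8 * (s * r) := by
    rw [← inner_add_left]
    refine (abs_real_inner_le_norm _ _).trans ?_
    calc ‖n + m‖ * ‖z‖ ≤ 4 * s * (2 * r) := mul_le_mul hsum hz (norm_nonneg _) (by positivity)
      _ = _ := by ring
  have i1 := abs_le.1 (hb n hn)
  have i2 := abs_le.1 (hb m hm)
  rw [abs_le] at hnm ⊢
  have hLs : 0 ≤ L * (s * r) := by positivity
  have k1 : L * δ * T = 4 * (L * (s * r)) := by rw [mul_assoc, hTδ]; ring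
  have k2 : ∀ p : ℝ, -(2 * r) ≤ p → p ≤ 2 * r → |L * δ * p| ≤ 2 * (L * (s * r)) :=
    fun p hp1 hp2 => by
    rw [abs_mul, abs_of_nonneg (by positivity : 0 ≤ L * δ)]
    calc L * δ * |p| ≤ L * s * (2 * r) :=
          mul_le_mul (mul_le_mul_of_nonneg_left hδs hL.le) (abs_le.2 ⟨hp1, hp2⟩) (abs_nonneg _)
            (by positivity)
      _ = _ := by ring
  have k3 := abs_le.1 (k2 _ i1.1 i1.2)
  have k4 := abs_le.1 (k2 _ i2.1 i2.2)
  have k5 : L * δ * (s * r) ≤ L * (s * r) := by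
    calc L * δ * (s * r) ≤ L * 1 * (s * r) := by gcongr
      _ = _ := by ring
  have k6 := mul_le_mul_of_nonneg_left hnm.1 hL.le
  have k7 := mul_le_mul_of_nonneg_left hnm.2 hL.le
  constructor <;> linarith

/-- The dichotomy, normalised. -/
theorem dichotomy {lam : ℝ} (hlam : 0 < lam) :
    ∃ μ σ r L : ℝ, 1 / 2 ≤ μ ∧ μ < 1 ∧ 0 < σ ∧ σ ≤ 1 ∧ 0 < r ∧ r ≤ 1 / 4 ∧ 0 < L ∧ L ≤ 1 ∧
      ∀ (u : E3 → ℝ) (x0 : E3), IH u (ball x0 1) →
        (∀ x ∈ ball x0 1, ∀ y ∈ ball x0 1, u y - u x ≤ ‖y - x‖) →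
        (∀ x ∈ ball x0 σ, ∀ y ∈ ball x0 σ, u y - u x ≤ μ * ‖y - x‖) ∨
        ∃ n : E3, ‖n‖ = 1 ∧
          ∀ z : E3, ‖z‖ ≤ 2 * r → |u (x0 + z) - u x0 - L * ⟪n, z⟫| ≤ lam * (L * r) := by
  set δ := min 1 ((lam / 16) ^ 2) with hδd
  have hδ : 0 < δ := lt_min one_pos (by positivity)
  have hδ1 : δ ≤ 1 := min_le_left _ _
  set s := Real.sqrt δ with hs
  have hs0 : 0 < s := Real.sqrt_pos.2 hδ
  have hs1 : s ≤ 1 := Real.sqrt_le_one.2 hδ1
  have hsl : 16 * s ≤ lam := by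
    have := Real.sqrt_le_sqrt (min_le_right 1 ((lam / 16) ^ 2))
    rw [Real.sqrt_sq (by positivity), ← hδd, ← hs] at this
    linarith
  set L := 1 / (1 + δ) with hL
  have hL0 : 0 < L := by positivity
  have hL1 : L < 1 := by rw [hL, div_lt_one (by positivity)]; linarith
  have hLh : 1 / 2 ≤ L := by rw [hL, le_div_iff₀ (by positivity)]; linarith
  have hLδ : L * (1 + δ) = 1 := by rw [hL]; field_simp
  refine ⟨(1 + L) / 2, (1 - L) / 16, 1 / 4 * s / 4, L, by linarith, by linarith, by linarith,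
    by linarith, by positivity, by linarith, hL0, hL1.le, fun u x0 hu hlip => ?_⟩
  by_cases hgood : ∀ x ∈ ball x0 ((1 - L) / 16), ∀ y ∈ ball x0 ((1 - L) / 16),
      u y - u x ≤ (1 + L) / 2 * ‖y - x‖
  · exact Or.inl hgood
  refine Or.inr ?_
  push Not at hgood
  obtain ⟨x, hx, y, hy, hxy⟩ := hgood
  rw [mem_ball, dist_eq_norm] at hx hy
  set σ := (1 - L) / 16 with hσ
  -- an extremal point seen from `p`
  have key : ∀ (w : E3 → ℝ) (p q : E3), IsSub w (ball x0 1) → ‖p - x0‖ < σ → ‖q - x0‖ < σ →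
      (1 + L) / 2 * ‖q - p‖ < w q - w p →
      (∀ a ∈ ball x0 1, ∀ b ∈ ball x0 1, w b - w a ≤ ‖b - a‖) →
      ∃ n : E3, ‖n‖ = 1 ∧ L * (1 / 4) ≤ w (x0 + (1 / 4 : ℝ) • n) - w x0 := by
    intro w p q hw hp hq hpq hwl
    have hball : closedBall p (1 / 4) ⊆ ball x0 1 := fun a ha => by
      rw [mem_closedBall] at ha
      rw [mem_ball]
      have := dist_triangle a p x0
      rw [dist_eq_norm p x0] at this
      linarith
    obtain ⟨c, hc, hcb⟩ : ∃ c, ‖c - p‖ = 1 / 4 ∧ w p + (1 + L) / 2 * (1 / 4) < w c := by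
      by_contra hcon
      push Not at hcon
      have h1 := hw.cone (x := p) (ρ := 1 / 4) (k := (1 + L) / 2) (by norm_num) (by linarith) hball
        (fun c hc => hcon c hc) (y := q) ?_
      · linarith
      · have := norm_sub_le (q - x0) (p - x0)
        rw [sub_sub_sub_cancel_right] at this
        linarith
    refine ⟨(4 : ℝ) • (c - p), by rw [norm_smul, hc]; norm_num, ?_⟩
    rw [smul_smul, show (1 / 4 : ℝ) * 4 = 1 by norm_num, one_smul]
    have h0 : x0 ∈ ball x0 1 := mem_ball_self one_pos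
    have hpm : p ∈ ball x0 1 := by rw [mem_ball, dist_eq_norm]; linarith
    have hcm : c ∈ ball x0 1 := hball (by rw [mem_closedBall, dist_eq_norm, hc])
    have hc'm : x0 + (c - p) ∈ ball x0 1 := by
      rw [mem_ball, dist_eq_norm, add_sub_cancel_left, hc]; norm_num
    have h2 := hwl _ hc'm _ hcm
    have h3 := hwl _ hpm _ h0
    rw [show c - (x0 + (c - p)) = p - x0 by abel] at h2
    rw [norm_sub_rev x0 p] at h3
    linarith
  obtain ⟨n, hn, hnT⟩ := key u x y hu.1 hx hy hxy hlip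
  obtain ⟨m, hm, hmT⟩ := key (fun a => -u a) y x hu.2 hy hx
    (by rw [norm_sub_rev]; linarith) (fun a ha b hb => by
      have := hlip b hb a ha
      rw [norm_sub_rev] at this
      linarith)
  refine ⟨n, hn, fun z hz => (flat_of_axes (r0 := 1) hL0 hδ hδ1 one_pos hn hm
    (fun a b ha hb => ?_) hnT (by linarith) hz).trans
    (mul_le_mul_of_nonneg_right hsl (by positivity))⟩
  rw [hLδ, one_mul]
  have := hlip (x0 + a) (by rwa [mem_ball, dist_eq_norm, add_sub_cancel_left]) (x0 + b)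
    (by rwa [mem_ball, dist_eq_norm, add_sub_cancel_left])
  rwa [add_sub_add_left_eq_sub] at this

end Vale.Agent.P080.C1.Holder
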