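import Vale.Agent.P080.C1.Holder.Iterate
import Mathlib.Analysis.SpecialFunctions.Pow.Real

/-!
# The interior Hölder estimate for the gradient
-/

namespace Vale.Agent.P080.C1.Holder

open scoped ContDiff Topology RealInnerProductSpace
open Set Filter Metric

lemma IH.mono {u : E3 → ℝ} {U V : Set E3} (h : IH u U) (hV : V ⊆ U) : IH u V :=
  ⟨⟨h.1.1.mono hV, fun z hz => h.1.2 z (hV hz)⟩, ⟨h.2.1.mono hV, fun z hz => h.2.2 z (hV hz)⟩⟩

lemma norm_fderiv_sub_le {u : E3 → ℝ} {x0 z a : E3} {r ε : ℝ} (hε : 0 ≤ ε) (hz : z ∈ ball x0 r)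
    (hd : DifferentiableAt ℝ u z)
    (h : ∀ x ∈ ball x0 r, ∀ y ∈ ball x0 r, |u y - u x - ⟪a, y - x⟫| ≤ ε * ‖y - x‖) :
    ‖fderiv ℝ u z - innerSL ℝ a‖ ≤ ε := by
  refine HasFDerivAt.le_of_lip' (f := fun x => u x - innerSL ℝ a x) (x₀ := z)
    (hd.hasFDerivAt.sub (innerSL ℝ a).hasFDerivAt) hε ?_
  filter_upwards [isOpen_ball.mem_nhds hz] with x hx
  rw [Real.norm_eq_abs, innerSL_apply_apply, innerSL_apply_apply,
    show u x - ⟪a, x⟫ - (u z - ⟪a, z⟫) = u x - u z - (⟪a, x⟫ - ⟪a, z⟫) by ring, ← inner_sub_right]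
  exact h z hz x hx

/-- oscillation controls the Lipschitz constant inside -/
lemma lip_of_osc {u : E3 → ℝ} {x0 : E3} {R M : ℝ} (hR : 0 < R) (hM : 0 ≤ M)
    (hu : IsSub u (ball x0 R)) (hosc : ∀ x ∈ ball x0 R, ∀ y ∈ ball x0 R, u x - u y ≤ M)
    {x : E3} (hx : x ∈ ball x0 (R / 2)) {p q : E3} (hp : p ∈ ball x (R / 8))
    (hq : q ∈ ball x (R / 8)) : u q - u p ≤ 4 * M / R * ‖q - p‖ := by
  rw [mem_ball] at hx hp hq
  have hsub : closedBall p (R / 4) ⊆ ball x0 R := fun w hw => by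
    rw [mem_closedBall] at hw
    rw [mem_ball]
    have h1 := dist_triangle w p x
    have h2 := dist_triangle w x x0
    linarith
  have h := hu.cone (x := p) (ρ := R / 4) (k := 4 * M / R) (by positivity) (by positivity) hsub
    (fun w hw => ?_) (y := q) ?_
  · linarith
  · have := hosc w (hsub (by rw [mem_closedBall, dist_eq_norm, hw])) p
      (hsub (mem_closedBall_self (by positivity)))
    have e : 4 * M / R * (R / 4) = M := by field_simp
    linarith
  · rw [← dist_eq_norm]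
    have := dist_triangle_right q p x
    linarith

theorem gradient_estimate (H : ∃ C0 lam0, 0 < C0 ∧ 0 < lam0 ∧ ∀ τ, 0 < τ → SlopeAt C0 lam0 τ) :
    ∃ α C : ℝ, 0 < α ∧ 0 < C ∧ ∀ (u : E3 → ℝ) (x0 : E3) (R M : ℝ), 0 < R → IH u (ball x0 R) →
      (∀ x ∈ ball x0 R, ∀ y ∈ ball x0 R, u x - u y ≤ M) →
      ∀ x ∈ ball x0 (R / 2), DifferentiableAt ℝ u x ∧ ‖fderiv ℝ u x‖ ≤ C * M / R ∧
        ∀ y ∈ ball x0 (R / 2),
          ‖fderiv ℝ u x - fderiv ℝ u y‖ ≤ C * M / R * (dist x y / R) ^ α := by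
  obtain ⟨C1, c, θ, μ, hC1, hc, hc1, hθ, hθ1, hμ, hμ1, hdec⟩ := lin_decay H
  set α := Real.log μ / Real.log θ with hα
  have hα0 : 0 < α := div_pos_of_neg_of_neg (Real.log_neg hμ hμ1) (Real.log_neg hθ hθ1)
  have hθα : θ ^ α = μ := by
    rw [Real.rpow_def_of_pos hθ, hα, mul_div_cancel₀ _ (Real.log_neg hθ hθ1).ne,
      Real.exp_log hμ]
  set C := 4 + 8 * (C1 + 1) * (16 / (c * θ)) ^ α with hC
  have hp : 0 ≤ (16 / (c * θ)) ^ α := Real.rpow_nonneg (by positivity) _
  have hC4 : 4 ≤ C := by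
    have : 0 ≤ 8 * (C1 + 1) * (16 / (c * θ)) ^ α := by positivity
    linarith
  refine ⟨α, C, hα0, by linarith, fun u x0 R M hR hu hosc x hx => ?_⟩
  have hM : 0 ≤ M := by
    have := hosc x0 (mem_ball_self hR) x0 (mem_ball_self hR)
    linarith
  have hC1' := contDiffOn_of_slope H isOpen_ball hu
  have hhalf : ∀ w ∈ ball x0 (R / 2), w ∈ ball x0 R := fun w hw =>
    ball_subset_ball (by linarith) hw
  have hdiff : ∀ w ∈ ball x0 R, DifferentiableAt ℝ u w := fun w hw =>
    (hC1'.differentiableOn (by norm_num) w hw).differentiableAt (isOpen_ball.mem_nhds hw)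
  have hbound : ∀ w ∈ ball x0 (R / 2), ‖fderiv ℝ u w‖ ≤ 4 * M / R := fun w hw => by
    refine (hdiff w (hhalf w hw)).hasFDerivAt.le_of_lip' (by positivity) ?_
    filter_upwards [ball_mem_nhds w (show (0 : ℝ) < R / 8 by positivity)] with z hz
    have h1 := lip_of_osc hR hM hu.1 hosc hw (mem_ball_self (by positivity)) hz
    have h2 := lip_of_osc hR hM hu.1 hosc hw hz (mem_ball_self (by positivity))
    rw [norm_sub_rev] at h2
    rw [Real.norm_eq_abs, abs_le]
    constructor <;> linarith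
  refine ⟨hdiff x (hhalf x hx), (hbound x hx).trans ?_, fun y hy => ?_⟩
  · gcongr
  refine le_of_forall_pos_le_add fun e he => ?_
  set d := dist x y with hd
  rcases eq_or_ne x y with rfl | hxy
  · simp only [sub_self, norm_zero]
    have : 0 ≤ C * M / R * (d / R) ^ α := by
      have : 0 ≤ C := by linarith
      have : 0 ≤ d := dist_nonneg
      positivity
    linarith
  have hd0 : 0 < d := dist_pos.2 hxy
  set k := d / R with hk
  have hk0 : 0 < k := div_pos hd0 hR
  -- a slightly larger oscillation bound, so that it is positive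
  set M' := M + e * R / (C * (k ^ α + 1)) with hM'
  have hC0 : 0 < C := by linarith
  have hkα : 0 ≤ k ^ α := Real.rpow_nonneg hk0.le _
  have hM'0 : 0 < M' := by
    have : 0 < e * R / (C * (k ^ α + 1)) := by positivity
    linarith
  have hgoal : C * M' / R * k ^ α ≤ C * M / R * k ^ α + e := by
    have h1 : C * M' / R * k ^ α = C * M / R * k ^ α + e * (k ^ α / (k ^ α + 1)) := by
      rw [hM']; field_simp
    have h2 : k ^ α / (k ^ α + 1) ≤ 1 := by rw [div_le_one (by positivity)]; linarith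
    have h3 := mul_le_mul_of_nonneg_left h2 he.le
    linarith
  refine le_trans ?_ hgoal
  set Λ := 4 * M' / R with hΛ
  have hΛ0 : 0 < Λ := by positivity
  have hMM : 4 * M / R ≤ Λ := by
    have : 0 ≤ e * R / (C * (k ^ α + 1)) := by positivity
    rw [hΛ]; gcongr; linarith
  have hCM : ∀ t : ℝ, 0 ≤ t → t ≤ (16 / (c * θ)) ^ α * k ^ α →
      2 * (C1 + 1) * Λ * t ≤ C * M' / R * k ^ α := fun t _ htk => by
    calc 2 * (C1 + 1) * Λ * t ≤ 2 * (C1 + 1) * Λ * ((16 / (c * θ)) ^ α * k ^ α) :=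
          mul_le_mul_of_nonneg_left htk (by positivity)
      _ = 8 * (C1 + 1) * (16 / (c * θ)) ^ α * M' / R * k ^ α := by rw [hΛ]; ring
      _ ≤ _ := by gcongr; linarith
  have hscale : 16 / (c * θ) * k = 16 * d / (R * c) / θ := by rw [hk]; field_simp
  rw [← Real.mul_rpow (by positivity) hk0.le] at hCM
  rw [hscale] at hCM
  set X := 16 * d / (R * c) with hX
  have hX0 : 0 < X := by positivity
  rcases lt_or_ge 1 X with hbig | hsmall
  · refine le_trans ?_ (hCM 1 zero_le_one ?_)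
    · have h1 := norm_sub_le (fderiv ℝ u x) (fderiv ℝ u y)
      have h2 := hbound x hx
      have h3 := hbound y hy
      have h4 : 0 ≤ C1 * Λ := by positivity
      linarith
    · refine Real.one_le_rpow ?_ hα0.le
      rw [le_div_iff₀ hθ]; linarith
  · obtain ⟨n, hn1, hn2⟩ := exists_nat_pow_near_of_lt_one hX0 hsmall hθ hθ1
    have hlip : ∀ p ∈ ball x (R / 8), ∀ q ∈ ball x (R / 8), u q - u p ≤ Λ * ‖q - p‖ :=
      fun p hp q hq => (lip_of_osc hR hM hu.1 hosc hx hp hq).trans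
        (mul_le_mul_of_nonneg_right hMM (norm_nonneg _))
    obtain ⟨a, ha⟩ := hdec n u x (R / 8) Λ (by positivity) hΛ0
      (IH.mono hu fun w hw => by
        rw [mem_ball] at hw hx ⊢
        have := dist_triangle w x x0
        linarith) hlip
    have hyn : y ∈ ball x (R / 8 * c * θ ^ n) := by
      rw [mem_ball, dist_comm, ← hd]
      have h1 : 16 * d ≤ θ ^ n * (R * c) := by
        rwa [hX, div_le_iff₀ (by positivity)] at hn2
      linarith
    have hxn : x ∈ ball x (R / 8 * c * θ ^ n) := mem_ball_self (by positivity)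
    have h1 := norm_fderiv_sub_le (by positivity) hxn (hdiff x (hhalf x hx)) ha
    have h2 := norm_fderiv_sub_le (by positivity) hyn (hdiff y (hhalf y hy)) ha
    refine le_trans ?_ (hCM (μ ^ n) (by positivity) ?_)
    · have h3 := norm_sub_le_norm_sub_add_norm_sub (fderiv ℝ u x) (innerSL ℝ a) (fderiv ℝ u y)
      rw [norm_sub_rev (innerSL ℝ a)] at h3
      have h4 : 0 ≤ Λ * μ ^ n := by positivity
      linarith
    · rw [← hθα, ← Real.rpow_natCast (θ ^ α), ← Real.rpow_mul hθ.le, mul_comm α,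
        Real.rpow_mul hθ.le, Real.rpow_natCast]
      refine Real.rpow_le_rpow (by positivity) ?_ hα0.le
      rw [le_div_iff₀ hθ, ← pow_succ]
      exact hn1.le

end Vale.Agent.P080.C1.Holder
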