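import Vale.Agent.P080.C1.Holder.Point
import Mathlib.Algebra.BigOperators.Intervals

/-!
# Improvement of flatness at the centre of every configuration
-/

namespace Vale.Agent.P080.C1.Holder

open scoped ContDiff Topology RealInnerProductSpace
open Set Filter Metric Finset

lemma gau_eq_zero {lam : ℝ} (hlam : 0 < lam) {h : E3} (h0 : gau lam h = 0) : h = 0 := by
  have a1 : |h 2| ≤ 0 := h0 ▸ abs_le_gau lam h
  have a2 : lat h ≤ 0 := by
    have := lat_le_gau hlam h
    rwa [h0, zero_mul] at this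
  rw [← norm_le_zero_iff]
  linarith [norm_le_lat_add h]

/-- the slope bound with a single constant -/
lemma sb_of_slope (H : ∃ C0 lam0, 0 < C0 ∧ 0 < lam0 ∧ ∀ τ, 0 < τ → SlopeAt C0 lam0 τ) :
    ∃ K lam0 : ℝ, 1 ≤ K ∧ 0 < lam0 ∧ ∀ lam u, 0 < lam → lam ≤ lam0 → Conf lam u → SB lam K u := by
  obtain ⟨C0, lam0, hC0, hlam0, hS⟩ := H
  refine ⟨1 + C0 + Real.sqrt C0, lam0, by linarith [Real.sqrt_nonneg C0], hlam0,
    fun lam u hlam hle hu x h hx hh => ?_⟩
  have hr : 0 ≤ (1 + C0 + Real.sqrt C0) * (lam * |h 2| + Real.sqrt lam * lat h) := by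
    have := lat_nonneg h
    positivity
  rcases (gau_nonneg lam h).eq_or_lt with h0 | h0
  · obtain rfl := gau_eq_zero hlam h0.symm
    simpa using hr
  refine (hS _ h0 lam u hlam hle hu x h hx le_rfl hh).trans ?_
  rw [Real.sqrt_mul hC0.le]
  have h1 : 0 ≤ Real.sqrt C0 * (lam * |h 2|) := by positivity
  have h2 : 0 ≤ C0 * (Real.sqrt lam * lat h) :=
    mul_nonneg hC0.le (mul_nonneg (Real.sqrt_nonneg _) (lat_nonneg h))
  have h3 : 0 ≤ lam * |h 2| + Real.sqrt lam * lat h := by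
    have := lat_nonneg h
    positivity
  linarith

lemma box_neg {lam : ℝ} {x : E3} (hx : x ∈ box lam) : -x ∈ box lam := by
  refine ⟨by simpa using hx.1, ?_⟩
  have : lat (-x) = lat x := by
    have := lat_smul (-1) x
    simpa using this
  rw [this]; exact hx.2

/-- reflecting a configuration through the origin and changing sign -/
lemma Conf.reflect {lam : ℝ} {u : E3 → ℝ} (h : Conf lam u) : Conf lam fun z => -u (-z) := by
  obtain ⟨U, hU, hu, hbox, hflat⟩ := h
  refine ⟨(fun z => -z) ⁻¹' U, hU.preimage continuous_neg, ?_,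
    fun x hx => hbox (box_neg hx), fun x hx => ?_⟩
  · have h1 := hu.similar (LinearIsometryEquiv.neg ℝ) 0 one_pos one_pos 0
    simp only [LinearIsometryEquiv.coe_neg, one_smul, zero_add, sub_zero, div_one] at h1
    exact ⟨h1.2, by simpa using h1.1⟩
  · have := hflat _ (box_neg hx)
    rw [← abs_neg] at this
    convert this using 2
    simp; ring

/-- two planes touching from either side of a function are close -/
lemma flat_of_planes {u : E3 → ℝ} {lam m err : ℝ} {a a' : E3}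
    (hlow : ∀ z, gau lam z ≤ m → ⟪a, z⟫ - err ≤ u z - u 0)
    (hup : ∀ z, gau lam z ≤ m → u z - u 0 ≤ ⟪a', z⟫ + err) {z : E3} (hz : gau lam z ≤ m) :
    |u z - u 0 - ⟪a, z⟫| ≤ 3 * err := by
  have hneg : gau lam (-z) ≤ m := by
    have := gau_smul lam (-1) z
    rw [neg_one_smul, abs_neg, abs_one, one_mul] at this
    linarith
  have h1 := hlow z hz
  have h2 := hup z hz
  have h3 := hlow _ hneg
  have h4 := hup _ hneg
  rw [inner_neg_right] at h3 h4
  rw [abs_le]; constructor <;> linarith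

/-- Every configuration is, at its centre, `lam/64`-flat at a height bounded below. -/
theorem exists_improve (H : ∃ C0 lam0, 0 < C0 ∧ 0 < lam0 ∧ ∀ τ, 0 < τ → SlopeAt C0 lam0 τ) :
    ∃ A lam1 ρmin : ℝ, 0 < A ∧ 0 < lam1 ∧ 0 < ρmin ∧
      ∀ lam u, 0 < lam → lam ≤ lam1 → Conf lam u → ∃ (a : E3) (ρ : ℝ),
        ρmin ≤ ρ ∧ ρ ≤ 1 / 4 ∧ |a 2 - 1| ≤ A * lam ∧ lat a ≤ A * Real.sqrt lam ∧
        ∀ z ∈ ocyl a 0 ρ (R0 * Real.sqrt (lam / 32) * ρ),
          z ∈ box lam ∧ |u z - (u 0 + ⟪a, z⟫)| ≤ lam / 64 * ρ := by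
  obtain ⟨K, lam0, hK, hlam0, hSB⟩ := sb_of_slope H
  set R := 6 * (K + 1) with hR
  have hR1 : 1 ≤ R := by linarith
  set A := K * (1 + R) + 2 * R ^ 2 + 2 * R with hA
  have hA0 : 0 < A := by positivity
  set M := 2 * A + R0 + 1 with hM
  have hM1 : 1 ≤ M := by norm_num [hM, R0]; linarith
  set C1 := 2 * (1 + 2 * R) ^ 2 * M ^ 2 + 16 * K * M + 4 with hC1
  have hC10 : 0 < C1 := by positivity
  set δ := min (1 / (4 * M)) (1 / (192 * C1)) with hδd
  have hδ : 0 < δ := lt_min (by positivity) (by positivity)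
  have hδM : δ * M ≤ 1 / 4 := by
    have h := mul_le_mul_of_nonneg_right (min_le_left (1 / (4 * M)) (1 / (192 * C1)))
      (by linarith : 0 ≤ M)
    have e : 1 / (4 * M) * M = 1 / 4 := by field_simp
    linarith
  have hδC : C1 * δ ≤ 1 / 192 := by
    have h := mul_le_mul_of_nonneg_left (min_le_right (1 / (4 * M)) (1 / (192 * C1))) hC10.le
    have e : C1 * (1 / (192 * C1)) = 1 / 192 := by field_simp
    linarith
  have hδ1 : δ ≤ 1 := by
    have := le_mul_of_one_le_right hδ.le hM1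
    linarith
  obtain ⟨N, hN⟩ := exists_nat_gt (2 * K * (2 + R) / δ ^ 2)
  set T0 := 1 / (32 * R) with hT0
  have hT0p : 0 < T0 := by positivity
  have hRT0 : R * T0 = 1 / 32 := by rw [hT0]; field_simp
  set lam1 := min (min lam0 1) (min (min (1 / (4 * (K * (1 + R)))) (1 / (2 * R ^ 2)))
    (min (1 / (2 * A)) (1 / (4 * A ^ 2)))) with hlam1
  have hlam1p : 0 < lam1 := by positivity
  refine ⟨A, lam1, δ * T0 * δ ^ N, hA0, hlam1p, by positivity, fun lam u hlam hle hu => ?_⟩
  simp only [hlam1, le_min_iff] at hle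
  obtain ⟨⟨hl0, hlone⟩, ⟨hl1, hl2⟩, hl3, hl4⟩ := hle
  rw [le_div_iff₀ (by positivity)] at hl1 hl2 hl3 hl4
  have hsm : Small lam K R := ⟨hlam, hK, rfl, by linarith, by linarith⟩
  set s := Real.sqrt lam with hs
  have hs0 : 0 < s := Real.sqrt_pos.2 hlam
  have hss : s * s = lam := Real.mul_self_sqrt hlam.le
  have hs1 : s ≤ 1 := Real.sqrt_le_one.2 hlone
  have hAs : A * s ≤ 1 / 2 := by nlinarith
  set v : E3 → ℝ := fun z => -u (-z) with hv
  have hsbu := hSB lam u hlam hl0 hu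
  have hsbv := hSB lam v hlam hl0 (Conf.reflect hu)
  obtain ⟨Uv, -, hvIH, hvbox, -⟩ := Conf.reflect hu
  obtain ⟨U, -, huIH, hubox, -⟩ := hu
  set T : ℕ → ℝ := fun i => T0 * δ ^ i with hT
  have hTp : ∀ i, 0 < T i := fun i => by positivity
  have hTd : ∀ i, T (i + 1) / δ = T i := fun i => by
    simp only [hT, pow_succ]; field_simp
  have hRT : ∀ i, R * T i ≤ 1 / 32 := fun i => by
    calc R * T i = R * T0 * δ ^ i := by simp only [hT]; ring
      _ ≤ R * T0 * 1 := mul_le_mul_of_nonneg_left (pow_le_one₀ hδ.le hδ1) (by positivity)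
      _ = _ := by rw [mul_one, hRT0]
  have hDU : ∀ {W : Set E3}, box lam ⊆ W → ∀ i, cylD lam R (T i) ⊆ W := fun hW i d hd =>
    hW (mem_box_of_gau hlam ((gau_cylD hlam hR1 (hTp i).le hd).trans (by linarith [hRT i])))
  set g : ℕ → ℝ := fun i => capSlope u lam R (T i) + capSlope v lam R (T i) with hg
  have hTi : ∀ i, T (i + 1) ≤ T i := fun i => by
    simp only [hT, pow_succ]
    exact mul_le_mul_of_nonneg_left (mul_le_of_le_one_right (by positivity) hδ1) hT0p.le
  have hmu : ∀ i, capSlope u lam R (T (i + 1)) ≤ capSlope u lam R (T i) := fun i =>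
    capSlope_mono huIH.1 hsm hsbu.base (hTp _) (hTi i) (by linarith [hRT i]) (hDU hubox i)
  have hmv : ∀ i, capSlope v lam R (T (i + 1)) ≤ capSlope v lam R (T i) := fun i =>
    capSlope_mono hvIH.1 hsm hsbv.base (hTp _) (hTi i) (by linarith [hRT i]) (hDU hvbox i)
  have hbu : ∀ i, 1 - K * lam ≤ capSlope u lam R (T i) ∧
      capSlope u lam R (T i) ≤ 1 + K * (1 + R) * lam := fun i =>
    capSlope_bounds hsm hsbu.base
      (huIH.1.1.mono ((cap_subset_cylD (hTp i).le).trans (hDU hubox i))) (hTp i)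
      (by linarith [hRT i])
  have hbv : ∀ i, 1 - K * lam ≤ capSlope v lam R (T i) ∧
      capSlope v lam R (T i) ≤ 1 + K * (1 + R) * lam := fun i =>
    capSlope_bounds hsm hsbv.base
      (hvIH.1.1.mono ((cap_subset_cylD (hTp i).le).trans (hDU hvbox i))) (hTp i)
      (by linarith [hRT i])
  obtain ⟨i, hiN, hi⟩ : ∃ i < N, g i - g (i + 1) ≤ δ ^ 2 * lam := by
    by_contra hcon
    push Not at hcon
    have h1 : (N : ℝ) * (δ ^ 2 * lam) ≤ ∑ i ∈ Finset.range N, (g i - g (i + 1)) := by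
      have := Finset.card_nsmul_le_sum (Finset.range N) (fun i => g i - g (i + 1)) (δ ^ 2 * lam)
        fun i hi => (hcon i (Finset.mem_range.1 hi)).le
      simpa using this
    rw [Finset.sum_range_sub'] at h1
    have h2 : g 0 - g N ≤ 2 * K * (2 + R) * lam := by
      simp only [hg]; linarith [(hbu 0).2, (hbu N).1, (hbv 0).2, (hbv N).1]
    rw [div_lt_iff₀ (by positivity)] at hN
    have h3 := mul_lt_mul_of_pos_right hN hlam
    linarith
  have hstu : capSlope u lam R (T (i + 1) / δ) - capSlope u lam R (T (i + 1)) ≤ δ ^ 2 * lam := by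
    simp only [hg] at hi
    rw [hTd]; linarith [hmv i]
  have hstv : capSlope v lam R (T (i + 1) / δ) - capSlope v lam R (T (i + 1)) ≤ δ ^ 2 * lam := by
    simp only [hg] at hi
    rw [hTd]; linarith [hmu i]
  obtain ⟨a, ha2, hal, hlow⟩ := lower_plane huIH.1 hubox hsm hsbu hM1 hδ hδM (hTp (i + 1))
    (by rw [hTd]; exact hRT i) hstu
  obtain ⟨a', -, -, hlow'⟩ := lower_plane hvIH.1 hvbox hsm hsbv hM1 hδ hδM (hTp (i + 1))
    (by rw [hTd]; exact hRT i) hstv
  set ρ := δ * T (i + 1) with hρ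
  have hρ0 : 0 < ρ := by positivity
  have hρmin : δ * T0 * δ ^ N ≤ ρ := by
    rw [hρ, mul_assoc]
    exact mul_le_mul_of_nonneg_left
      (mul_le_mul_of_nonneg_left (pow_le_pow_of_le_one hδ.le hδ1 hiN) hT0p.le) hδ.le
  have hT32 : T (i + 1) ≤ 1 / 32 := le_trans (le_mul_of_one_le_left (hTp _).le hR1) (hRT _)
  have hMρ : M * ρ ≤ 1 := by
    calc M * ρ = δ * M * T (i + 1) := by rw [hρ]; ring
      _ ≤ 1 / 4 * (1 / 32) := mul_le_mul hδM hT32 (hTp _).le (by norm_num)
      _ ≤ 1 := by norm_num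
  have hρ4 : ρ ≤ 1 / 4 := by
    linarith [mul_le_mul hδ1 hT32 (hTp (i + 1)).le zero_le_one]
  have hl3' : A * lam ≤ 1 / 2 := by linarith
  have ha2' := abs_le.1 ha2
  refine ⟨a, ρ, hρmin, hρ4, ha2, hal, fun z hz => ?_⟩
  obtain ⟨-, -, hc3, hc4⟩ := frame_bounds (h := z) hA0 hlam (a := a) (by linarith) hal
  simp only [ocyl, mem_ofPred_eq, sub_zero] at hz
  have hsl : Real.sqrt (lam / 32) ≤ s := Real.sqrt_le_sqrt (by linarith)
  have hr : R0 * Real.sqrt (lam / 32) * ρ ≤ R0 * s * ρ :=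
    mul_le_mul_of_nonneg_right (mul_le_mul_of_nonneg_left hsl (by norm_num [R0])) hρ0.le
  have hgz : gau lam z ≤ M * ρ := by
    refine max_le ?_ ?_
    · have : R0 * s * ρ ≤ R0 * ρ :=
        mul_le_mul_of_nonneg_right (mul_le_of_le_one_right (by norm_num [R0]) hs1) hρ0.le
      have : 0 ≤ A * ρ := by positivity
      linarith [hz.1, hz.2]
    · rw [div_le_iff₀ hs0]
      have h5 := mul_le_mul_of_nonneg_left hz.1 (by positivity : 0 ≤ 2 * A * s)
      have : 0 ≤ ρ * s := by positivity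
      linarith [hz.2]
  refine ⟨mem_box_of_gau hlam (hgz.trans hMρ), ?_⟩
  have key := flat_of_planes (u := u) (m := M * ρ) (err := C1 * δ * (lam * ρ)) (a := a) (a' := a')
    hlow (fun w hw => ?_) hgz
  · rw [show u z - (u 0 + ⟪a, z⟫) = u z - u 0 - ⟪a, z⟫ by ring]
    refine key.trans ?_
    calc 3 * (C1 * δ * (lam * ρ)) ≤ 3 * (1 / 192 * (lam * ρ)) := by gcongr
      _ = lam / 64 * ρ := by ring
  · have hw' : gau lam (-w) ≤ M * ρ := by
      have := gau_smul lam (-1) w
      rw [neg_one_smul, abs_neg, abs_one, one_mul] at this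
      linarith
    have h := hlow' _ hw'
    simp only [hv, neg_neg, neg_zero, inner_neg_right] at h
    linarith

end Vale.Agent.P080.C1.Holder
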