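import Vale.Agent.P080.C1.Holder.Improve
import Vale.Agent.P080.C1.Holder.Dichotomy

/-!
# Geometric decay of the distance to linear functions
-/

namespace Vale.Agent.P080.C1.Holder

open scoped ContDiff Topology RealInnerProductSpace
open Set Filter Metric

lemma gau_le_norm_div {lam : ℝ} (hlam : 0 < lam) (h1 : lam ≤ 1) (w : E3) :
    gau lam w ≤ ‖w‖ / Real.sqrt lam := by
  refine max_le ((abs_le_norm w).trans ?_)
    (div_le_div_of_nonneg_right (lat_le_norm w) (Real.sqrt_nonneg _))
  rw [le_div_iff₀ (Real.sqrt_pos.2 hlam)]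
  exact mul_le_of_le_one_right (norm_nonneg w) (Real.sqrt_le_one.2 h1)

/-- a flat function gives a configuration in the frame of its slope -/
lemma conf_of_flat {u : E3 → ℝ} {U : Set E3} (hUo : IsOpen U) (hu : IH u U) {P : E3}
    {O : E3 ≃ₗᵢ[ℝ] E3} {ρ Lc lam b : ℝ} (hρ : 0 < ρ) (hL : 0 < Lc)
    (h : ∀ z ∈ box lam, P + ρ • O z ∈ U ∧
      |u (P + ρ • O z) - b - Lc * z 2| ≤ lam * Lc) :
    Conf lam fun z => (u (P + ρ • O z) - b) / Lc := by
  refine ⟨(fun z => P + ρ • O z) ⁻¹' U, hUo.preimage (by fun_prop), hu.similar O P hρ hL b,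
    fun z hz => (h z hz).1, fun z hz => ?_⟩
  show |(u (P + ρ • O z) - b) / Lc - z 2| ≤ lam
  rw [div_sub' hL.ne', abs_div, abs_of_pos hL, div_le_iff₀ hL]
  exact (h z hz).2

/-- Configurations are geometrically close to linear functions at geometric scales. -/
lemma lin_conf (H : ∃ C0 lam0, 0 < C0 ∧ 0 < lam0 ∧ ∀ τ, 0 < τ → SlopeAt C0 lam0 τ) :
    ∃ C θ lam1 : ℝ, 0 < C ∧ 0 < θ ∧ θ ≤ 1 ∧ 0 < lam1 ∧ ∀ (k : ℕ) (lam : ℝ) (u : E3 → ℝ),
      0 < lam → lam ≤ lam1 → Conf lam u →
      Lin u 0 (Real.sqrt lam / 64 * θ ^ k) (C * Real.sqrt lam * (1 / 2) ^ k) := by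
  obtain ⟨A, lam1, ρmin, hA, hlam1, hρmin, himp⟩ := exists_improve H
  obtain ⟨K, lam0, hK, hlam0, hSB⟩ := sb_of_slope H
  refine ⟨2 * K, min 1 (ρmin / 6), min (min lam0 lam1) (min 1 (min (1 / (2 * A)) (1 / (4 * A ^ 2)))),
    by linarith, lt_min one_pos (by positivity), min_le_left _ _, by positivity, fun k => ?_⟩
  induction k with
  | zero =>
    intro lam u hlam hle hu
    simp only [le_min_iff] at hle
    obtain ⟨⟨hl0, -⟩, hl1, -⟩ := hle
    set s := Real.sqrt lam with hs
    have hs0 : 0 < s := Real.sqrt_pos.2 hlam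
    have hs1 : s ≤ 1 := Real.sqrt_le_one.2 hl1
    have hsb := hSB lam u hlam hl0 hu
    refine ⟨e3, fun x hx y hy => ?_⟩
    rw [mem_ball, dist_zero_right, pow_zero, mul_one] at hx hy
    have hgx : gau lam x ≤ 1 / 8 := (gau_le_norm_div hlam hl1 x).trans (by
      rw [← hs, div_le_iff₀ hs0]; linarith)
    have hgh : gau lam (y - x) ≤ 1 / 16 := (gau_le_norm_div hlam hl1 _).trans (by
      rw [← hs, div_le_iff₀ hs0]
      linarith [norm_sub_le y x])
    have key := hsb x (y - x) hgx hgh
    rw [add_sub_cancel] at key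
    have e : ⟪e3, y - x⟫ = (y - x) 2 := by simp [e3, EuclideanSpace.inner_single_left]
    rw [e, pow_zero, mul_one]
    refine key.trans ?_
    have h1 : lam * |(y - x) 2| ≤ s * ‖y - x‖ := by
      refine mul_le_mul ?_ (abs_le_norm _) (abs_nonneg _) hs0.le
      rw [← Real.mul_self_sqrt hlam.le, ← hs]
      exact mul_le_of_le_one_left hs0.le hs1
    have h2 : s * lat (y - x) ≤ s * ‖y - x‖ := mul_le_mul_of_nonneg_left (lat_le_norm _) hs0.le
    calc K * (lam * |(y - x) 2| + s * lat (y - x)) ≤ K * (2 * (s * ‖y - x‖)) :=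
          mul_le_mul_of_nonneg_left (by linarith) (by linarith)
      _ = _ := by ring
  | succ k ih =>
    intro lam u hlam hle hu
    have hle' := hle
    simp only [le_min_iff] at hle'
    obtain ⟨⟨-, hl1⟩, hlone, hl2, hl3⟩ := hle'
    rw [le_div_iff₀ (by positivity)] at hl2 hl3
    obtain ⟨a, ρ, hρ, hρ4, ha2, hal, hflat⟩ := himp lam u hlam hl1 hu
    obtain ⟨U, hUo, huIH, hbox, -⟩ := hu
    have hρ0 : 0 < ρ := hρmin.trans_le hρ
    set s := Real.sqrt lam with hs
    have hs0 : 0 < s := Real.sqrt_pos.2 hlam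
    have hAs : A * s ≤ 1 / 2 := by
      refine le_of_pow_le_pow_left₀ two_ne_zero (by norm_num) ?_
      rw [mul_pow, Real.sq_sqrt hlam.le]; linarith
    have ha := abs_le.1 ha2
    have hn2 : a 2 ≤ ‖a‖ := (le_abs_self _).trans (abs_le_norm a)
    have hna : 1 / 2 ≤ ‖a‖ := by linarith
    have hna2 : ‖a‖ ≤ 2 := by
      refine (norm_le_lat_add a).trans ?_
      rw [abs_of_nonneg (show 0 ≤ a 2 by linarith)]
      linarith
    obtain ⟨O, hO⟩ := exists_isometry_e3 (n := ‖a‖⁻¹ • a)
      (by rw [norm_smul, norm_inv, norm_norm, inv_mul_cancel₀ (by linarith : ‖a‖ ≠ 0)])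
    have hz2 : ∀ z : E3, ⟪‖a‖⁻¹ • a, ρ • O z⟫ = ρ * z 2 := fun z => by
      rw [← hO, real_inner_smul_right, O.inner_map_map]
      simp [e3, EuclideanSpace.inner_single_left]
    have hLc : 0 < ‖a‖ * ρ := mul_pos (by linarith) hρ0
    have hconf : Conf (lam / 32) fun z => (u (0 + ρ • O z) - u 0) / (‖a‖ * ρ) := by
      refine conf_of_flat hUo huIH hρ0 hLc fun z hz => ?_
      have hmem : (0 : E3) + ρ • O z ∈ ocyl a 0 ρ (R0 * Real.sqrt (lam / 32) * ρ) := by
        simp only [ocyl, mem_ofPred_eq, zero_add, sub_zero]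
        rw [hz2, abs_mul, abs_of_pos hρ0]
        refine ⟨mul_le_of_le_one_right hρ0.le hz.1, ?_⟩
        rw [← hO, ← map_smul, ← map_smul, ← map_sub, O.norm_map, ← smul_smul, ← smul_sub,
          norm_smul, Real.norm_of_nonneg hρ0.le]
        calc ρ * ‖z - z 2 • e3‖ = ρ * lat z := by
              congr 1
              rw [lat, ← Real.sqrt_sq (norm_nonneg (z - z 2 • e3)), norm_sq_eq_lat]
              simp [latSq, e3]
          _ ≤ ρ * (R0 * Real.sqrt (lam / 32)) := mul_le_mul_of_nonneg_left hz.2 hρ0.le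
          _ = _ := by ring
      obtain ⟨hb1, hb2⟩ := hflat _ hmem
      refine ⟨hbox hb1, ?_⟩
      have e : ⟪a, ρ • O z⟫ = ‖a‖ * ρ * z 2 := by
        have := hz2 z
        rw [real_inner_smul_left, inv_mul_eq_iff_eq_mul₀ (by linarith : ‖a‖ ≠ 0)] at this
        rw [this]; ring
      rw [inner_add_right, inner_zero_right, zero_add, e] at hb2
      refine le_trans (le_of_eq ?_) (hb2.trans ?_)
      · congr 1; simp only [zero_add]; ring
      · have : lam / 64 * ρ ≤ lam / 32 * (1 / 2 * ρ) := le_of_eq (by ring)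
        refine this.trans (mul_le_mul_of_nonneg_left ?_ (by positivity))
        exact mul_le_mul_of_nonneg_right hna hρ0.le
    have key := Lin.transfer hρ0 hLc (fun z => rfl)
      (ih (lam / 32) _ (by positivity) ((by linarith : lam / 32 ≤ lam).trans hle) hconf)
    have h32 : Real.sqrt (lam / 32) ≤ s / 4 := by
      rw [Real.sqrt_le_left (by positivity), div_pow, Real.sq_sqrt hlam.le]; linarith
    have h32' : s / 6 ≤ Real.sqrt (lam / 32) := by
      refine Real.le_sqrt_of_sq_le ?_
      rw [div_pow, Real.sq_sqrt hlam.le]; linarith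
    refine key.mono ?_ ?_
    · have hθ : min 1 (ρmin / 6) ≤ ρ / 6 := (min_le_right _ _).trans (by linarith)
      have h0 : 0 ≤ min 1 (ρmin / 6) ^ k := pow_nonneg (le_min zero_le_one (by positivity)) k
      calc s / 64 * min 1 (ρmin / 6) ^ (k + 1) = s / 64 * min 1 (ρmin / 6) ^ k * min 1 (ρmin / 6) :=
            by rw [pow_succ]; ring
        _ ≤ s / 64 * min 1 (ρmin / 6) ^ k * (ρ / 6) :=
            mul_le_mul_of_nonneg_left hθ (by positivity)
        _ = ρ * (s / 6 / 64 * min 1 (ρmin / 6) ^ k) := by ring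
        _ ≤ _ := by gcongr
    · rw [show ‖a‖ * ρ / ρ = ‖a‖ by field_simp]
      calc ‖a‖ * (2 * K * Real.sqrt (lam / 32) * (1 / 2) ^ k)
          ≤ 2 * (2 * K * (s / 4) * (1 / 2) ^ k) := by
            refine mul_le_mul hna2 ?_ (by positivity) (by norm_num)
            gcongr
        _ = _ := by rw [pow_succ]; ring

/-- Lipschitz infinity-harmonic functions are geometrically close to linear functions at
geometric scales. -/
theorem lin_decay (H : ∃ C0 lam0, 0 < C0 ∧ 0 < lam0 ∧ ∀ τ, 0 < τ → SlopeAt C0 lam0 τ) :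
    ∃ C c θ μ : ℝ, 0 < C ∧ 0 < c ∧ c ≤ 1 ∧ 0 < θ ∧ θ < 1 ∧ 0 < μ ∧ μ < 1 ∧
      ∀ (n : ℕ) (u : E3 → ℝ) (x0 : E3) (R Λ : ℝ), 0 < R → 0 < Λ → IH u (ball x0 R) →
        (∀ x ∈ ball x0 R, ∀ y ∈ ball x0 R, u y - u x ≤ Λ * ‖y - x‖) →
        Lin u x0 (R * c * θ ^ n) (Λ * C * μ ^ n) := by
  obtain ⟨C, θ, lam1, hC, hθ, hθ1, hlam1, hlin⟩ := lin_conf H
  set lam := min lam1 (1 / 4096) with hlam
  have hlp : 0 < lam := lt_min hlam1 (by norm_num)
  set t := Real.sqrt lam with ht
  have ht0 : 0 < t := Real.sqrt_pos.2 hlp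
  have ht1 : t ≤ 1 / 64 := by
    rw [ht, Real.sqrt_le_left (by norm_num)]; linarith [min_le_right lam1 (1 / 4096)]
  obtain ⟨μ, σ, r, L, hμ2, hμ1, hσ, hσ1, hr, hr4, hL, hL1, hdich⟩ := dichotomy hlp
  refine ⟨max 1 (C * t), min 1 (r * t / 64), min (1 / 2) (min σ θ), μ, by positivity,
    by positivity, min_le_left _ _, by positivity, (min_le_left _ _).trans_lt (by norm_num),
    by linarith, hμ1, fun n => ?_⟩
  induction n with
  | zero =>
    intro u x0 R Λ hR hΛ _ hlip
    refine ⟨0, fun x hx y hy => ?_⟩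
    have hb : ball x0 (R * min 1 (r * t / 64) * (min (1 / 2) (min σ θ)) ^ 0) ⊆ ball x0 R :=
      ball_subset_ball (by
        rw [pow_zero, mul_one]; exact mul_le_of_le_one_right hR.le (min_le_left _ _))
    have h1 := hlip x (hb hx) y (hb hy)
    have h2 := hlip y (hb hy) x (hb hx)
    rw [norm_sub_rev] at h2
    rw [inner_zero_left, sub_zero, pow_zero, mul_one]
    have h3 : Λ * ‖y - x‖ ≤ Λ * max 1 (C * t) * ‖y - x‖ :=
      mul_le_mul_of_nonneg_right (le_mul_of_one_le_right hΛ.le (le_max_left _ _)) (norm_nonneg _)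
    rw [abs_le]; constructor <;> linarith
  | succ n ih =>
    intro u x0 R Λ hR hΛ hu hlip
    set u' : E3 → ℝ := fun z => (u (x0 + R • z) - 0) / (Λ * R) with hu'
    have hb : ∀ z ∈ ball (0 : E3) 1, x0 + R • z ∈ ball x0 R := fun z hz => by
      rw [mem_ball, dist_zero_right] at hz
      rw [mem_ball, dist_eq_norm, add_sub_cancel_left, norm_smul, Real.norm_of_nonneg hR.le]
      exact mul_lt_of_lt_one_right hR hz
    have hu'IH : IH u' (ball 0 1) := by
      have h := hu.similar (LinearIsometryEquiv.refl ℝ E3) x0 hR (mul_pos hΛ hR) 0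
      exact ⟨⟨h.1.1.mono fun z hz => hb z hz, fun z hz => h.1.2 z (hb z hz)⟩,
        ⟨h.2.1.mono fun z hz => hb z hz, fun z hz => h.2.2 z (hb z hz)⟩⟩
    have hlip' : ∀ x ∈ ball (0 : E3) 1, ∀ y ∈ ball (0 : E3) 1, u' y - u' x ≤ ‖y - x‖ := by
      intro x hx y hy
      have h := hlip _ (hb x hx) _ (hb y hy)
      rw [add_sub_add_left_eq_sub, ← smul_sub, norm_smul, Real.norm_of_nonneg hR.le] at h
      rw [hu', ← sub_div, div_le_iff₀ (mul_pos hΛ hR)]
      linarith
    rcases hdich u' 0 hu'IH hlip' with hsmall | ⟨m, hm, hflat⟩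
    · have key := ih u x0 (σ * R) (μ * Λ) (by positivity) (by positivity)
        ⟨⟨hu.1.1.mono (ball_subset_ball (mul_le_of_le_one_left hR.le hσ1)),
            fun z hz => hu.1.2 z (ball_subset_ball (mul_le_of_le_one_left hR.le hσ1) hz)⟩,
          ⟨hu.2.1.mono (ball_subset_ball (mul_le_of_le_one_left hR.le hσ1)),
            fun z hz => hu.2.2 z (ball_subset_ball (mul_le_of_le_one_left hR.le hσ1) hz)⟩⟩
        fun x hx y hy => by
          have hpre : ∀ w ∈ ball x0 (σ * R), R⁻¹ • (w - x0) ∈ ball (0 : E3) σ := fun w hw => by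
            rw [mem_ball, dist_eq_norm] at hw
            rw [mem_ball, dist_zero_right, norm_smul, norm_inv, Real.norm_of_nonneg hR.le,
              inv_mul_lt_iff₀ hR]
            linarith
          have h := hsmall _ (hpre x hx) _ (hpre y hy)
          simp only [hu', smul_inv_smul₀ hR.ne', add_sub_cancel, sub_zero, ← smul_sub,
            sub_sub_sub_cancel_right, norm_smul, norm_inv, Real.norm_of_nonneg hR.le] at h
          rw [← sub_div, div_le_iff₀ (mul_pos hΛ hR)] at h
          refine h.trans (le_of_eq ?_)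
          field_simp
      refine key.mono ?_ (le_of_eq (by rw [pow_succ]; ring))
      calc R * min 1 (r * t / 64) * min (1 / 2) (min σ θ) ^ (n + 1)
          = R * min 1 (r * t / 64) * min (1 / 2) (min σ θ) ^ n * min (1 / 2) (min σ θ) := by
            rw [pow_succ]; ring
        _ ≤ R * min 1 (r * t / 64) * min (1 / 2) (min σ θ) ^ n * σ := by
            refine mul_le_mul_of_nonneg_left ((min_le_right _ _).trans (min_le_left _ _)) ?_
            positivity
        _ = _ := by ring
    · obtain ⟨O, hO⟩ := exists_isometry_e3 hm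
      have hLr : 0 < L * r := mul_pos hL hr
      have hin : ∀ z : E3, ⟪m, r • O z⟫ = r * z 2 := fun z => by
        rw [← hO, real_inner_smul_right, O.inner_map_map]
        simp [e3, EuclideanSpace.inner_single_left]
      have hbox : ∀ z ∈ box lam, ‖r • O z‖ ≤ 2 * r := fun z hz => by
        rw [norm_smul, O.norm_map, Real.norm_of_nonneg hr.le, mul_comm]
        refine mul_le_mul_of_nonneg_right ?_ hr.le
        have h4 : R0 * t ≤ 1 := by norm_num [R0]; linarith
        linarith [hz.1, hz.2, norm_le_lat_add z]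
      have hconf : Conf lam fun z => (u' (0 + r • O z) - u' 0) / (L * r) := by
        refine conf_of_flat isOpen_ball hu'IH hr hLr fun z hz => ⟨?_, ?_⟩
        · rw [zero_add, mem_ball, dist_zero_right]
          linarith [hbox z hz]
        · have h := hflat _ (hbox z hz)
          rw [hin] at h
          refine le_trans (le_of_eq ?_) (h.trans (le_of_eq rfl))
          congr 1; ring
      have k1 := Lin.transfer hr hLr (fun z => rfl)
        (hlin (n + 1) lam _ hlp (min_le_left _ _) hconf)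
      have k2 := Lin.transfer (O := LinearIsometryEquiv.refl ℝ E3) (u := u) (x0 := x0) (b := 0) hR
        (mul_pos hΛ hR) (fun z => rfl) k1
      refine k2.mono ?_ ?_
      · calc R * min 1 (r * t / 64) * min (1 / 2) (min σ θ) ^ (n + 1)
            ≤ R * (r * t / 64) * θ ^ (n + 1) := by
              gcongr
              · exact min_le_right _ _
              · exact (min_le_right _ _).trans (min_le_right _ _)
          _ = _ := by rw [← ht]; ring
      · rw [← ht, show L * r / r = L by field_simp, show Λ * R / R = Λ by field_simp]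
        calc Λ * (L * (C * t * (1 / 2) ^ (n + 1))) ≤ Λ * (1 * (max 1 (C * t) * μ ^ (n + 1))) := by
              gcongr
              exact le_max_right _ _
          _ = _ := by ring

end Vale.Agent.P080.C1.Holder
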