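import Vale.Agent.P080.C1.Final
import Vale.Agent.P080.C1.Holder.Cone

/-!
# Improvement of flatness at every point

The slope bound makes the maximal slope over cap-shaped sets monotone in the height and bounded
at order `lam`. A height at which both the upper and the lower slopes are nearly stationary gives
two planes touching from either side, hence improved flatness.
-/

namespace Vale.Agent.P080.C1.Holder

open scoped ContDiff Topology RealInnerProductSpace
open Set Filter Metric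

/-- top of the cylinder of height `T` -/
def cap (lam R T : ℝ) : Set E3 := {d | d 2 = T ∧ lat d ≤ R * Real.sqrt lam * T}

/-- the cylinder of height `T` -/
def cylD (lam R T : ℝ) : Set E3 := {d | |d 2| ≤ T ∧ lat d ≤ R * Real.sqrt lam * T}

/-- maximal slope over the cap -/
noncomputable def capSlope (u : E3 → ℝ) (lam R T : ℝ) : ℝ :=
  sSup ((fun d => (u d - u 0) / ‖d‖) '' cap lam R T)

/-- slope bound seen from the origin -/
def Base (lam K : ℝ) (w : E3 → ℝ) : Prop :=
  ∀ h : E3, gau lam h ≤ 1 / 16 →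
    |w h - w 0 - h 2| ≤ K * (lam * |h 2| + Real.sqrt lam * lat h)

lemma norm_le_lat_add (x : E3) : ‖x‖ ≤ lat x + |x 2| := by
  refine le_of_pow_le_pow_left₀ two_ne_zero (add_nonneg (lat_nonneg x) (abs_nonneg _)) ?_
  rw [norm_sq_eq_lat, add_sq, lat_sq, sq_abs]
  have := mul_nonneg (lat_nonneg x) (abs_nonneg (x 2))
  linarith

lemma gau_cylD {lam R T : ℝ} (hlam : 0 < lam) (hR : 1 ≤ R) (hT : 0 ≤ T) {d : E3}
    (hd : d ∈ cylD lam R T) : gau lam d ≤ R * T := by
  refine max_le (hd.1.trans (le_mul_of_one_le_left hT hR)) ?_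
  rw [div_le_iff₀ (Real.sqrt_pos.2 hlam)]
  exact hd.2.trans (le_of_eq (by ring))

lemma cap_subset_cylD {lam R T : ℝ} (hT : 0 ≤ T) : cap lam R T ⊆ cylD lam R T :=
  fun d hd => ⟨by rw [hd.1, abs_of_nonneg hT], hd.2⟩

lemma isCompact_cylD {lam R T : ℝ} : IsCompact (cylD lam R T) := by
  refine Metric.isCompact_of_isClosed_isBounded ?_ ?_
  · have h : Continuous fun x : E3 => |x 2| := by fun_prop
    exact (isClosed_le h continuous_const).inter (isClosed_le continuous_lat continuous_const)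
  · refine (isBounded_closedBall (x := (0 : E3)) (r := R * Real.sqrt lam * T + T)).subset
      fun x hx => ?_
    rw [mem_closedBall, dist_zero_right]
    linarith [norm_le_lat_add x, hx.1, hx.2]

lemma isCompact_cap {lam R T : ℝ} (hT : 0 ≤ T) : IsCompact (cap lam R T) := by
  have h : Continuous fun x : E3 => x 2 := by fun_prop
  exact isCompact_cylD.of_isClosed_subset
    ((isClosed_eq h continuous_const).inter (isClosed_le continuous_lat continuous_const))
    (cap_subset_cylD hT)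

lemma smul_e3_mem_cap {lam R T : ℝ} (hR : 0 ≤ R) (hT : 0 ≤ T) : T • e3 ∈ cap lam R T := by
  refine ⟨by simp [e3], ?_⟩
  have : lat (T • e3) = 0 := by simp [lat, latSq, e3]
  rw [this]; positivity

lemma exists_capSlope {u : E3 → ℝ} {lam R T : ℝ} (hR : 0 ≤ R) (hT : 0 < T)
    (hu : ContinuousOn u (cap lam R T)) :
    ∃ p ∈ cap lam R T, capSlope u lam R T = (u p - u 0) / ‖p‖ ∧
      ∀ d ∈ cap lam R T, u d - u 0 ≤ capSlope u lam R T * ‖d‖ := by
  have hne : ∀ d ∈ cap lam R T, 0 < ‖d‖ := fun d hd => by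
    have := abs_le_norm d
    rw [hd.1, abs_of_pos hT] at this; linarith
  have hc : ContinuousOn (fun d => (u d - u 0) / ‖d‖) (cap lam R T) :=
    (hu.sub continuousOn_const).div continuous_norm.continuousOn fun d hd => (hne d hd).ne'
  obtain ⟨p, hp, hmax⟩ := (isCompact_cap hT.le).exists_isMaxOn ⟨_, smul_e3_mem_cap hR hT.le⟩ hc
  have hS : capSlope u lam R T = (u p - u 0) / ‖p‖ := by
    refine IsGreatest.csSup_eq ⟨⟨p, hp, rfl⟩, ?_⟩
    rintro _ ⟨d, hd, rfl⟩
    exact hmax hd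
  refine ⟨p, hp, hS, fun d hd => ?_⟩
  have h := hmax hd
  simp only [mem_ofPred_eq] at h
  rw [hS, ← div_le_iff₀ (hne d hd)]
  exact h

/-- standing smallness conditions -/
structure Small (lam K R : ℝ) : Prop where
  pos : 0 < lam
  one_le : 1 ≤ K
  eq_R : R = 6 * (K + 1)
  small : K * (1 + R) * lam ≤ 1 / 4
  small' : R ^ 2 * lam ≤ 1 / 2

lemma Small.one_le_R {lam K R : ℝ} (h : Small lam K R) : 1 ≤ R := by
  rw [h.eq_R]; linarith [h.one_le]

lemma Small.sqrt_le {lam K R : ℝ} (h : Small lam K R) : R * Real.sqrt lam ≤ 1 := by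
  refine le_of_pow_le_pow_left₀ two_ne_zero zero_le_one ?_
  rw [mul_pow, Real.sq_sqrt h.pos.le]; linarith [h.small']

/-- on the cap the value is pinned down at order `lam` -/
lemma cap_bound {w : E3 → ℝ} {lam K R T : ℝ} (h : Small lam K R) (hw : Base lam K w) (hT : 0 < T)
    (hRT : R * T ≤ 1 / 16) {d : E3} (hd : d ∈ cap lam R T) :
    |w d - w 0 - T| ≤ K * (1 + R) * lam * T := by
  have h1 := hw d ((gau_cylD h.pos h.one_le_R hT.le (cap_subset_cylD hT.le hd)).trans hRT)
  rw [hd.1, abs_of_pos hT] at h1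
  refine h1.trans ?_
  have h2 := mul_le_mul_of_nonneg_left hd.2 (Real.sqrt_nonneg lam)
  rw [show Real.sqrt lam * (R * Real.sqrt lam * T)
    = R * (Real.sqrt lam * Real.sqrt lam) * T by ring, Real.mul_self_sqrt h.pos.le] at h2
  calc K * (lam * T + Real.sqrt lam * lat d) ≤ K * (lam * T + R * lam * T) :=
        mul_le_mul_of_nonneg_left (by linarith) (by linarith [h.one_le])
    _ = _ := by ring

lemma capSlope_bounds {w : E3 → ℝ} {lam K R T : ℝ} (h : Small lam K R) (hw : Base lam K w)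
    (hc : ContinuousOn w (cap lam R T)) (hT : 0 < T) (hRT : R * T ≤ 1 / 16) :
    1 - K * lam ≤ capSlope w lam R T ∧ capSlope w lam R T ≤ 1 + K * (1 + R) * lam := by
  have hR0 : 0 ≤ R := by linarith [h.one_le_R]
  obtain ⟨p, hp, hS, hmax⟩ := exists_capSlope hR0 hT hc
  constructor
  · have h1 := hmax _ (smul_e3_mem_cap hR0 hT.le)
    have hg : gau lam (T • e3) ≤ 1 / 16 :=
      (gau_cylD h.pos h.one_le_R hT.le (cap_subset_cylD hT.le (smul_e3_mem_cap hR0 hT.le))).trans
        hRT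
    have h2 := (abs_le.1 (hw _ hg)).1
    have e1 : lat (T • e3) = 0 := by simp [lat, latSq, e3]
    have e2 : ‖T • e3‖ = T := by rw [norm_smul, norm_e3, Real.norm_of_nonneg hT.le, mul_one]
    have e3' : (T • e3) 2 = T := by simp [e3]
    rw [e1, e3', abs_of_pos hT, mul_zero, add_zero] at h2
    rw [e2] at h1
    refine le_of_mul_le_mul_right ?_ hT
    linarith
  · have hpn : T ≤ ‖p‖ := by
      have := abs_le_norm p
      rwa [hp.1, abs_of_pos hT] at this
    rw [hS, div_le_iff₀ (by linarith)]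
    have h2 := (abs_le.1 (cap_bound h hw hT hRT hp)).2
    have h3 : (1 + K * (1 + R) * lam) * T ≤ (1 + K * (1 + R) * lam) * ‖p‖ := by
      refine mul_le_mul_of_nonneg_left hpn ?_
      have : 0 ≤ K * (1 + R) * lam :=
        mul_nonneg (mul_nonneg (by linarith [h.one_le]) (by linarith)) h.pos.le
      linarith
    linarith

/-- a cone bound on the cap holds on the whole cylinder -/
lemma cone_cylD {w : E3 → ℝ} {U : Set E3} (hw : IsSub w U) {lam K R T k : ℝ} (h : Small lam K R)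
    (hb : Base lam K w) (hT : 0 < T) (hRT : R * T ≤ 1 / 16) (hU : cylD lam R T ⊆ U)
    (hk : 1 - K * lam ≤ k) (hcap : ∀ d ∈ cap lam R T, w d - w 0 ≤ k * ‖d‖) {d : E3}
    (hd : d ∈ cylD lam R T) : w d - w 0 ≤ k * ‖d‖ := by
  have hK := h.one_le
  have hR := h.one_le_R
  have hlam := h.pos
  have hsm := h.small
  have hKl : K * lam ≤ 1 / 4 := by
    have hR0 : 0 ≤ R := by linarith
    have : 0 ≤ K * R * lam := mul_nonneg (mul_nonneg (by linarith) hR0) hlam.le
    linarith
  have hk0 : 0 ≤ k := by linarith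
  have hint : (0 : E3) ∈ interior (cylD lam R T) := by
    have ho : IsOpen {x : E3 | |x 2| < T ∧ lat x < R * Real.sqrt lam * T} :=
      (isOpen_lt (by fun_prop : Continuous fun x : E3 => |x 2|) continuous_const).inter
        (isOpen_lt continuous_lat continuous_const)
    have hsub0 : {x : E3 | |x 2| < T ∧ lat x < R * Real.sqrt lam * T} ⊆ cylD lam R T :=
      fun x hx => ⟨hx.1.le, hx.2.le⟩
    refine interior_maximal hsub0 ho ?_
    refine ⟨by simpa using hT, ?_⟩
    have : lat (0 : E3) = 0 := by simp [lat, latSq]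
    rw [this]
    have := Real.sqrt_pos.2 hlam
    have : 0 < R := by linarith
    positivity
  have hbd : cylD lam R T ⊆ closedBall 0 (2 * T) := fun x hx => by
    rw [mem_closedBall, dist_zero_right]
    have := mul_le_mul_of_nonneg_right h.sqrt_le hT.le
    linarith [norm_le_lat_add x, hx.1, hx.2]
  have key := cone_compact hw isCompact_cylD hU (by linarith : 0 < 2 * T) hk0 hint hbd
    (fun y hy => ?_) hd
  · rw [sub_zero] at key; linarith
  rw [sub_zero]
  have hyD : y ∈ cylD lam R T := isCompact_cylD.isClosed.frontier_subset hy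
  have hg := hb y ((gau_cylD hlam hR hT.le hyD).trans hRT)
  have hsl : Real.sqrt lam * lat y ≤ R * lam * T := by
    calc Real.sqrt lam * lat y ≤ Real.sqrt lam * (R * Real.sqrt lam * T) :=
          mul_le_mul_of_nonneg_left hyD.2 (Real.sqrt_nonneg lam)
      _ = R * (Real.sqrt lam * Real.sqrt lam) * T := by ring
      _ = _ := by rw [Real.mul_self_sqrt hlam.le]
  have hup : w y - w 0 ≤ y 2 + K * (1 + R) * lam * T := by
    have h1 := (abs_le.1 hg).2
    have h2 : K * (lam * |y 2| + Real.sqrt lam * lat y) ≤ K * (lam * T + R * lam * T) :=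
      mul_le_mul_of_nonneg_left (add_le_add (mul_le_mul_of_nonneg_left hyD.1 hlam.le) hsl)
        (by linarith)
    linarith
  have hsub : frontier (cylD lam R T) ⊆
      {x : E3 | |x 2| = T} ∪ {x | lat x = R * Real.sqrt lam * T} := by
    refine (frontier_inter_subset {x : E3 | |x 2| ≤ T}
      {x | lat x ≤ R * Real.sqrt lam * T}).trans (union_subset_union ?_ ?_)
    · exact inter_subset_left.trans
        (frontier_le_subset_eq (by fun_prop : Continuous fun x : E3 => |x 2|) continuous_const)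
    · exact inter_subset_right.trans (frontier_le_subset_eq continuous_lat continuous_const)
  suffices hgoal : w y - w 0 ≤ k * ‖y‖ by linarith
  rcases hsub hy with hy2 | hyl
  · change |y 2| = T at hy2
    rcases abs_eq hT.le |>.1 hy2 with h2 | h2
    · exact hcap y ⟨h2, hyD.2⟩
    · have h3 : K * (1 + R) * lam * T ≤ 1 / 4 * T := mul_le_mul_of_nonneg_right hsm hT.le
      have h4 : 0 ≤ k * ‖y‖ := mul_nonneg hk0 (norm_nonneg y)
      rw [h2] at hup; linarith
  · change lat y = R * Real.sqrt lam * T at hyl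
    have hn : ‖y‖ ≤ 2 * T := by
      have := hbd hyD
      rwa [mem_closedBall, dist_zero_right] at this
    have hy2' := abs_le.1 hyD.1
    have hny := abs_le.1 (abs_le_norm y)
    have hsq : (‖y‖ - y 2) * (‖y‖ + y 2) = R ^ 2 * lam * T ^ 2 := by
      calc (‖y‖ - y 2) * (‖y‖ + y 2) = ‖y‖ ^ 2 - y 2 ^ 2 := by ring
        _ = lat y ^ 2 := by rw [norm_sq_eq_lat, lat_sq]; ring
        _ = (R * Real.sqrt lam * T) ^ 2 := by rw [hyl]
        _ = R ^ 2 * Real.sqrt lam ^ 2 * T ^ 2 := by ring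
        _ = _ := by rw [Real.sq_sqrt hlam.le]
    have hgap : R ^ 2 * lam * T / 3 ≤ ‖y‖ - y 2 := by
      refine le_of_mul_le_mul_right ?_ (by linarith : 0 < 3 * T)
      have := mul_le_mul_of_nonneg_left (show ‖y‖ + y 2 ≤ 3 * T by linarith)
        (by linarith : 0 ≤ ‖y‖ - y 2)
      nlinarith
    have hR2 : K * (3 + R) ≤ R ^ 2 / 3 := by rw [h.eq_R]; nlinarith
    have h5 : K * (3 + R) * (lam * T) ≤ R ^ 2 / 3 * (lam * T) :=
      mul_le_mul_of_nonneg_right hR2 (by positivity)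
    have h6 : K * lam * ‖y‖ ≤ K * lam * (2 * T) :=
      mul_le_mul_of_nonneg_left hn (by positivity)
    have h7 : (1 - K * lam) * ‖y‖ ≤ k * ‖y‖ := mul_le_mul_of_nonneg_right hk (norm_nonneg y)
    linarith

/-- the maximal slope decreases with the height -/
lemma capSlope_mono {w : E3 → ℝ} {U : Set E3} (hw : IsSub w U) {lam K R T T' : ℝ}
    (h : Small lam K R) (hb : Base lam K w) (hT' : 0 < T') (hTT : T' ≤ T)
    (hRT : R * T ≤ 1 / 16) (hU : cylD lam R T ⊆ U) :
    capSlope w lam R T' ≤ capSlope w lam R T := by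
  have hT : 0 < T := hT'.trans_le hTT
  have hR0 : 0 ≤ R := by linarith [h.one_le_R]
  have hsub : cap lam R T' ⊆ cylD lam R T := fun d hd =>
    ⟨by rw [hd.1, abs_of_pos hT']; exact hTT,
      hd.2.trans (mul_le_mul_of_nonneg_left hTT (mul_nonneg hR0 (Real.sqrt_nonneg lam)))⟩
  have hcT : ContinuousOn w (cap lam R T) := hw.1.mono ((cap_subset_cylD hT.le).trans hU)
  obtain ⟨_, _, _, hmax⟩ := exists_capSlope hR0 hT hcT
  obtain ⟨p, hp, hS, -⟩ := exists_capSlope hR0 hT' (hw.1.mono (hsub.trans hU))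
  have hpn : 0 < ‖p‖ := by
    have := abs_le_norm p
    rw [hp.1, abs_of_pos hT'] at this; linarith
  rw [hS, div_le_iff₀ hpn]
  exact cone_cylD hw h hb hT hRT hU (capSlope_bounds h hb hcT hT hRT).1 hmax (hsub hp)

/-- the slope bound on the small region, with one constant -/
def SB (lam K : ℝ) (u : E3 → ℝ) : Prop :=
  ∀ x h : E3, gau lam x ≤ 1 / 8 → gau lam h ≤ 1 / 16 →
    |u (x + h) - u x - h 2| ≤ K * (lam * |h 2| + Real.sqrt lam * lat h)

lemma SB.base {lam K : ℝ} {u : E3 → ℝ} (h : SB lam K u) : Base lam K u := fun d hd => by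
  have := h 0 d (by simp [gau, lat, latSq]) hd
  rwa [zero_add] at this

lemma perp_le {n z : E3} {R s m : ℝ} (hn : ‖n‖ = 1) (hn2 : 1 / 2 ≤ n 2) (hnl : lat n ≤ R * s)
    (hz2 : |z 2| ≤ m) (hzl : lat z ≤ m * s) (_hR : 0 ≤ R) :
    ‖z‖ ^ 2 - ⟪n, z⟫ ^ 2 ≤ ((1 + 2 * R) * (m * s)) ^ 2 := by
  set c := z 2 / n 2 with hc
  have h1 : ‖z‖ ^ 2 - ⟪n, z⟫ ^ 2 ≤ ‖z - c • n‖ ^ 2 := by
    rw [norm_sub_sq_real, real_inner_smul_right, real_inner_comm n z, norm_smul, hn,
      mul_one, Real.norm_eq_abs, sq_abs]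
    nlinarith [sq_nonneg (c - ⟪n, z⟫)]
  have hv2 : (z - c • n) 2 = 0 := by
    simp only [PiLp.sub_apply, PiLp.smul_apply, smul_eq_mul]
    rw [hc, div_mul_cancel₀ _ (by linarith : n 2 ≠ 0), sub_self]
  have h2 : ‖z - c • n‖ = lat (z - c • n) := by
    rw [lat, ← Real.sqrt_sq (norm_nonneg (z - c • n)), norm_sq_eq_lat, hv2]; simp
  have h3 : lat (z - c • n) ≤ (1 + 2 * R) * (m * s) := by
    rw [sub_eq_add_neg, ← neg_smul]
    refine (lat_add_le _ _).trans ?_
    rw [lat_smul, abs_neg]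
    have h4 : |c| * lat n ≤ 2 * m * (R * s) := by
      refine mul_le_mul ?_ hnl (lat_nonneg n) (by linarith [abs_nonneg (z 2)])
      rw [hc, abs_div, abs_of_pos (by linarith : 0 < n 2), div_le_iff₀ (by linarith)]
      nlinarith [abs_nonneg (z 2)]
    linarith
  exact h1.trans (h2 ▸ pow_le_pow_left₀ (lat_nonneg _) h3 2)

lemma axis_dist_le {p z : E3} {c q T : ℝ} (e : ⟪p, z⟫ = ‖p‖ * c)
    (hperp : ‖z‖ ^ 2 - c ^ 2 ≤ q * T) (hhalf : T / 2 ≤ ‖p‖ - c) (hq : 0 ≤ q) (hT : 0 < T) :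
    ‖p - z‖ ≤ ‖p‖ - c + q := by
  refine le_of_pow_le_pow_left₀ two_ne_zero (by linarith) ?_
  rw [norm_sub_sq_real, e]
  nlinarith [mul_le_mul_of_nonneg_right hhalf hq, sq_nonneg q]

lemma hcap_shift {u : E3 → ℝ} {lam K R M r ε T : ℝ} {z d : E3} (hsb : SB lam K u) (hK : 0 ≤ K)
    (hgd : gau lam d ≤ 1 / 32) (hgz : gau lam z ≤ 1 / 32)
    (hzK : lam * |z 2| + Real.sqrt lam * lat z ≤ 2 * (lam * (M * r)))
    (hd : d ∈ cap lam R T) (hT : 0 < T) (h0 : 0 ≤ 4 * K * (lam * (M * r)))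
    (hmax : u d - u 0 ≤ ε * ‖d‖) :
    u (z + d) - u z ≤ (ε + 4 * K * (lam * (M * r)) / T) * ‖d‖ := by
  have h1 := (abs_le.1 (hsb d z (by linarith) (by linarith))).2
  have h2 := (abs_le.1 (hsb 0 z (by simp [gau, lat, latSq]) (by linarith))).1
  rw [zero_add] at h2
  rw [add_comm d z] at h1
  have hdn : T ≤ ‖d‖ := by
    have := abs_le_norm d
    rwa [hd.1, abs_of_pos hT] at this
  have h5 : 4 * K * (lam * (M * r)) ≤ 4 * K * (lam * (M * r)) / T * ‖d‖ := by
    calc 4 * K * (lam * (M * r)) = 4 * K * (lam * (M * r)) / T * T := by field_simp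
      _ ≤ _ := mul_le_mul_of_nonneg_left hdn (div_nonneg h0 hT.le)
  have h6 := mul_le_mul_of_nonneg_left hzK hK
  linarith

lemma axis_bounds {n : E3} {lam K R S : ℝ} (hlam : 0 ≤ lam) (hR : 0 ≤ R) (hK : 0 ≤ K)
    (hSb : 1 - K * lam ≤ S ∧ S ≤ 1 + K * (1 + R) * lam) (hS0 : 0 ≤ S) (hS2 : S ≤ 2)
    (hn2l : 1 - R ^ 2 * lam ≤ n 2) (hn2u : n 2 ≤ 1) (hnl : lat n ≤ R * Real.sqrt lam) :
    |(S • n) 2 - 1| ≤ (K * (1 + R) + 2 * R ^ 2 + 2 * R) * lam ∧
      lat (S • n) ≤ (K * (1 + R) + 2 * R ^ 2 + 2 * R) * Real.sqrt lam := by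
  constructor
  · have e : (S • n) 2 = S * n 2 := by simp
    rw [e, abs_le]
    have h1 : 0 ≤ K * lam * R := by positivity
    have h2 : S * (1 - R ^ 2 * lam) ≤ S * n 2 := mul_le_mul_of_nonneg_left hn2l hS0
    have h3 : S * n 2 ≤ S := mul_le_of_le_one_right hS0 hn2u
    have h4 : S * (R ^ 2 * lam) ≤ 2 * (R ^ 2 * lam) :=
      mul_le_mul_of_nonneg_right hS2 (by positivity)
    have h5 : 0 ≤ R * lam := by positivity
    have h6 : 0 ≤ R ^ 2 * lam := by positivity
    constructor <;> linarith [hSb.1, hSb.2]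
  · rw [lat_smul, abs_of_nonneg hS0]
    calc S * lat n ≤ 2 * (R * Real.sqrt lam) := mul_le_mul hS2 hnl (lat_nonneg n) (by norm_num)
      _ ≤ _ := by
        have : 0 ≤ (K * (1 + R) + 2 * R ^ 2) * Real.sqrt lam := by positivity
        linarith

lemma lower_arith {S k P D N q T r δ lam X K M x y : ℝ} (key : x - y ≤ k * D)
    (e1 : S * P = x) (hS0 : 0 ≤ S) (hS2 : S ≤ 2) (hD : D ≤ P - N + q) (hD4 : D ≤ 4 * T)
    (hq : 0 ≤ q) (hk : S ≤ k) (e3 : (k - S) * (4 * T) = (16 * K * M + 4) * δ * (lam * r))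
    (hX : 2 * q + (16 * K * M + 4) * δ * (lam * r) = X) :
    S * N - X ≤ y := by
  have h7 := mul_le_mul_of_nonneg_left hD hS0
  have h8 := mul_le_mul_of_nonneg_left hD4 (sub_nonneg.2 hk)
  have h9 := mul_le_mul_of_nonneg_right hS2 hq
  linarith

/-- A nearly stationary height gives a plane below. -/
lemma lower_plane {lam : ℝ} {u : E3 → ℝ} {U : Set E3} (hu : IsSub u U) (hU : box lam ⊆ U)
    {K R M δ T : ℝ} (h : Small lam K R) (hsb : SB lam K u) (hM : 1 ≤ M) (hδ : 0 < δ)
    (hδM : δ * M ≤ 1 / 4) (hT : 0 < T) (hRT : R * (T / δ) ≤ 1 / 32)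
    (hst : capSlope u lam R (T / δ) - capSlope u lam R T ≤ δ ^ 2 * lam) :
    ∃ a : E3, |a 2 - 1| ≤ (K * (1 + R) + 2 * R ^ 2 + 2 * R) * lam ∧
      lat a ≤ (K * (1 + R) + 2 * R ^ 2 + 2 * R) * Real.sqrt lam ∧
      ∀ z : E3, gau lam z ≤ M * (δ * T) →
        ⟪a, z⟫ - (2 * (1 + 2 * R) ^ 2 * M ^ 2 + 16 * K * M + 4) * δ * (lam * (δ * T))
          ≤ u z - u 0 := by
  have hK := h.one_le
  have hR := h.one_le_R
  have hlam := h.pos
  have hsm := h.small
  have hR0 : 0 ≤ R := by linarith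
  set s := Real.sqrt lam with hs
  have hs0 : 0 < s := Real.sqrt_pos.2 hlam
  have hss : s * s = lam := Real.mul_self_sqrt hlam.le
  have hδ4 : δ ≤ 1 / 4 := (le_mul_of_one_le_right hδ.le hM).trans hδM
  set T' := T / δ with hT'
  have hT'0 : 0 < T' := div_pos hT hδ
  have hTT : 4 * T ≤ T' := by
    rw [hT', le_div_iff₀ hδ]
    nlinarith
  have hRT0 : R * T ≤ 1 / 32 := le_trans (mul_le_mul_of_nonneg_left (by linarith) hR0) hRT
  have hbox : ∀ x : E3, gau lam x ≤ 1 → x ∈ U := fun x hx => hU (mem_box_of_gau hlam hx)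
  have hcD : ∀ t, 0 ≤ t → R * t ≤ 1 / 16 → cylD lam R t ⊆ U := fun t ht hRt d hd =>
    hbox d ((gau_cylD hlam hR ht hd).trans (by linarith))
  have hb := hsb.base
  obtain ⟨p, hp, hS, -⟩ := exists_capSlope hR0 hT
    (hu.1.mono ((cap_subset_cylD hT.le).trans (hcD T hT.le (by linarith))))
  obtain ⟨_, _, _, hmax'⟩ := exists_capSlope hR0 hT'0
    (hu.1.mono ((cap_subset_cylD hT'0.le).trans (hcD T' hT'0.le (by linarith))))
  set S := capSlope u lam R T with hSdef
  have hSb := capSlope_bounds h hb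
    (hu.1.mono ((cap_subset_cylD hT.le).trans (hcD T hT.le (by linarith)))) hT (by linarith)
  rw [← hSdef] at hSb
  have hKl : K * lam ≤ 1 / 4 := by
    have : 0 ≤ K * R * lam := mul_nonneg (mul_nonneg (by linarith) hR0) hlam.le
    linarith
  have hS0 : 0 ≤ S := by linarith [hSb.1]
  have hS2 : S ≤ 2 := by linarith [hSb.2]
  have hpn : T ≤ ‖p‖ := by
    have := abs_le_norm p
    rwa [hp.1, abs_of_pos hT] at this
  have hpl : lat p ≤ R * s * T := hp.2
  have hRs : R * s ≤ 1 := h.sqrt_le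
  have hpn2 : ‖p‖ ≤ 2 * T := by
    have h1 := norm_le_lat_add p
    rw [hp.1, abs_of_pos hT] at h1
    linarith [mul_le_mul_of_nonneg_right hRs hT.le]
  have hpn3 : ‖p‖ ≤ T * (1 + R ^ 2 * lam) := by
    refine le_of_pow_le_pow_left₀ two_ne_zero (by positivity) ?_
    rw [norm_sq_eq_lat, ← lat_sq, hp.1]
    calc lat p ^ 2 + T ^ 2 ≤ (R * s * T) ^ 2 + T ^ 2 := by
          gcongr; exact lat_nonneg p
      _ = T ^ 2 * (1 + R ^ 2 * lam) := by rw [← hss]; ring
      _ ≤ (T * (1 + R ^ 2 * lam)) ^ 2 := by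
          rw [mul_pow]
          refine mul_le_mul_of_nonneg_left ?_ (sq_nonneg T)
          have : 0 ≤ R ^ 2 * lam := by positivity
          nlinarith
  have hp0 : 0 < ‖p‖ := by linarith
  set n : E3 := ‖p‖⁻¹ • p with hn
  have hn1 : ‖n‖ = 1 := by rw [hn, norm_smul, norm_inv, norm_norm, inv_mul_cancel₀ hp0.ne']
  have hn2 : n 2 = T / ‖p‖ := by rw [hn]; simp [hp.1, inv_mul_eq_div]
  have hn2l : 1 - R ^ 2 * lam ≤ n 2 := by
    rw [hn2, le_div_iff₀ hp0]
    have h1 : 0 ≤ R ^ 2 * lam := by positivity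
    have h2 := h.small'
    have h3 := mul_le_mul_of_nonneg_left hpn3 (by linarith : 0 ≤ 1 - R ^ 2 * lam)
    have h4 : 0 ≤ T * (R ^ 2 * lam) ^ 2 := by positivity
    linarith
  have hn2u : n 2 ≤ 1 := by rw [hn2, div_le_one hp0]; exact hpn
  have hnl : lat n ≤ R * s := by
    rw [hn, lat_smul, abs_of_pos (inv_pos.2 hp0), inv_mul_le_iff₀ hp0]
    exact hpl.trans (by rw [mul_comm ‖p‖]; exact mul_le_mul_of_nonneg_left hpn (by positivity))
  refine ⟨S • n, (axis_bounds hlam.le hR0 (by linarith) hSb hS0 hS2 hn2l hn2u hnl).1,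
    (axis_bounds hlam.le hR0 (by linarith) hSb hS0 hS2 hn2l hn2u hnl).2, fun z hz => ?_⟩
  -- the lower bound
  set r := δ * T with hr
  have hr0 : 0 < r := by positivity
  have hMr : M * r ≤ T / 4 := by
    rw [hr]; calc M * (δ * T) = δ * M * T := by ring
      _ ≤ 1 / 4 * T := mul_le_mul_of_nonneg_right hδM hT.le
      _ = _ := by ring
  have hRT2 : T ≤ R * T := le_mul_of_one_le_left hT.le hR
  have hgz : gau lam z ≤ 1 / 32 := by linarith
  have hz2 : |z 2| ≤ M * r := (abs_le_gau lam z).trans hz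
  have hzl : lat z ≤ M * r * s :=
    (lat_le_gau hlam z).trans (mul_le_mul_of_nonneg_right hz hs0.le)
  have hzK : lam * |z 2| + s * lat z ≤ 2 * (lam * (M * r)) := by
    calc lam * |z 2| + s * lat z ≤ lam * (M * r) + s * (M * r * s) :=
          add_le_add (mul_le_mul_of_nonneg_left hz2 hlam.le) (mul_le_mul_of_nonneg_left hzl hs0.le)
      _ = lam * (M * r) + s * s * (M * r) := by ring
      _ = _ := by rw [hss]; ring
  set k := S + δ ^ 2 * lam + 4 * K * (lam * (M * r)) / T' with hk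
  have hk1 : 0 ≤ 4 * K * (lam * (M * r)) / T' := by
    have : 0 ≤ M := by linarith
    positivity
  set w : E3 → ℝ := fun d => (u (z + (1 : ℝ) • d) - 0) / 1 with hw
  have hwsub : IsSub w ((fun d => z + (1 : ℝ) • d) ⁻¹' U) := by
    exact isSub_similar hu (LinearIsometryEquiv.refl ℝ E3) z one_pos one_pos 0
  have hwv : ∀ d, w d = u (z + d) := fun d => by simp [hw]
  have hwb : Base lam K w := fun d hd => by
    rw [hwv, hwv, add_zero]
    exact hsb z d (by linarith) hd
  have hcap : ∀ d ∈ cap lam R T', w d - w 0 ≤ k * ‖d‖ := fun d hd => by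
    rw [hwv, hwv, add_zero]
    have hgd : gau lam d ≤ 1 / 32 :=
      (gau_cylD hlam hR hT'0.le (cap_subset_cylD hT'0.le hd)).trans hRT
    refine (hcap_shift hsb (by linarith) hgd hgz (by rw [← hs]; exact hzK) hd hT'0
      (by positivity) (hmax' d hd)).trans ?_
    rw [hk]
    exact mul_le_mul_of_nonneg_right (by linarith) (norm_nonneg d)
  have hmem : p - z ∈ cylD lam R T' := by
    refine ⟨?_, ?_⟩
    · have e : (p - z) 2 = T - z 2 := by simp [hp.1]
      rw [e]
      have := abs_le.1 hz2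
      rw [abs_le]; constructor <;> linarith
    · have hneg : lat (-z) = lat z := by
        have := lat_smul (-1) z
        simpa using this
      have h1 : lat (p - z) ≤ lat p + lat z := by
        rw [sub_eq_add_neg, ← hneg]; exact lat_add_le p (-z)
      have h2 : M * r * s ≤ R * s * T :=
        le_trans (mul_le_mul_of_nonneg_right (show M * r ≤ R * T by linarith) hs0.le)
          (le_of_eq (by ring))
      have h3 : R * s * (2 * T) ≤ R * s * T' :=
        mul_le_mul_of_nonneg_left (by linarith) (by positivity)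
      linarith
  have key := cone_cylD hwsub h hwb hT'0 (by linarith) (fun d hd => ?_)
    (show 1 - K * lam ≤ k by have := sq_nonneg δ; nlinarith [hSb.1]) hcap hmem
  · rw [hwv, hwv, add_zero, add_sub_cancel] at key
    set q := (1 + 2 * R) ^ 2 * M ^ 2 * δ * (lam * r) with hq
    have hpz : ‖p - z‖ ≤ ‖p‖ - ⟪n, z⟫ + q := by
      have hnz : |⟪n, z⟫| ≤ ‖z‖ := by
        have := abs_real_inner_le_norm n z
        rwa [hn1, one_mul] at this
      have hzn : ‖z‖ ≤ T / 2 := by
        have h1 := norm_le_lat_add z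
        have h2 : M * r * s ≤ M * r * 1 := by
          refine mul_le_mul_of_nonneg_left ?_ (by linarith [abs_nonneg (z 2)])
          exact le_trans (le_mul_of_one_le_left hs0.le hR) hRs
        linarith
      have hhalf : T / 2 ≤ ‖p‖ - ⟪n, z⟫ := by linarith [(abs_le.1 hnz).2]
      have hperp : ‖z‖ ^ 2 - ⟪n, z⟫ ^ 2 ≤ q * T := by
        refine (perp_le hn1 (by linarith [h.small']) hnl hz2 hzl hR0).trans (le_of_eq ?_)
        calc ((1 + 2 * R) * (M * r * s)) ^ 2
            = (1 + 2 * R) ^ 2 * M ^ 2 * δ * (s * s * r) * T := by rw [hr]; ring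
          _ = q * T := by rw [hss, hq]
      have e : ⟪p, z⟫ = ‖p‖ * ⟪n, z⟫ := by
        rw [hn, real_inner_smul_left]; field_simp
      exact axis_dist_le e hperp hhalf (by positivity) hT
    have hpz4 : ‖p - z‖ ≤ 4 * T := by
      have h1 := norm_sub_le p z
      have h2 := norm_le_lat_add z
      have h3 : M * r * s ≤ M * r * 1 := by
        refine mul_le_mul_of_nonneg_left ?_ (by linarith [abs_nonneg (z 2)])
        exact le_trans (le_mul_of_one_le_left hs0.le hR) hRs
      linarith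
    have e1 : S * ‖p‖ = u p - u 0 := by rw [hS]; field_simp
    have e2 : ⟪S • n, z⟫ = S * ⟪n, z⟫ := real_inner_smul_left _ _ _
    rw [e2]
    refine lower_arith (x := u p - u 0) (k := k) (q := q) (T := T) (K := K) (M := M) (δ := δ)
      (lam := lam) (r := r) (by linarith) e1 hS0 hS2 hpz hpz4 (by positivity)
      (by have : 0 ≤ δ ^ 2 * lam := by positivity
          linarith) ?_ ?_
    · rw [hk, hT', hr]; field_simp; ring
    · rw [hq]; ring
  · refine hbox _ ?_
    simp only [one_smul]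
    exact (gau_add_le z d).trans (by linarith [gau_cylD hlam hR hT'0.le hd])

end Vale.Agent.P080.C1.Holder
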